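import Mathlib

namespace Vale.Agent.P322

/-- Mutual information, in bits, of a joint probability mass function `p` on a finite product. -/
noncomputable def mutualInfoBits {α β : Type} [Fintype α] [Fintype β] (p : α → β → ℝ) : ℝ :=
  ∑ a, ∑ b, p a b * Real.logb 2 (p a b / ((∑ b', p a b') * (∑ a', p a' b)))

/-- Joint law of `(X, Y)`: `X` uniform on the `n`-cube, `Y` obtained by flipping every coordinate
independently with probability `ε`. -/
noncomputable def jointXY (n : ℕ) (ε : ℝ) (x y : Fin n → Bool) : ℝ :=
  (1 / 2 : ℝ) ^ n * ∏ j, (if x j = y j then 1 - ε else ε)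

/-- Joint law of `(f X, Y)`. -/
noncomputable def jointFY {n : ℕ} (f : (Fin n → Bool) → Bool) (ε : ℝ)
    (b : Bool) (y : Fin n → Bool) : ℝ :=
  ∑ x, if f x = b then jointXY n ε x y else 0

/-- Joint law of `(f X, Y_i)`. -/
noncomputable def jointFYi {n : ℕ} (f : (Fin n → Bool) → Bool) (ε : ℝ) (i : Fin n)
    (b c : Bool) : ℝ :=
  ∑ y, if y i = c then jointFY f ε b y else 0

/-- The binary entropy function in bits. -/
noncomputable def h2 (p : ℝ) : ℝ := Real.binEntropy p / Real.log 2

end Vale.Agent.P322
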