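import Mathlib
import Vale.Agent.P322.Defs

namespace Vale.Agent.P322

open Finset

/-- sign of a bit -/
def sgn (b : Bool) : ℝ := if b then 1 else -1

lemma sgn_sq (b : Bool) : sgn b * sgn b = 1 := by cases b <;> simp [sgn]

lemma sgn_not (b : Bool) : sgn (!b) = - sgn b := by cases b <;> simp [sgn]

lemma abs_sgn (b : Bool) : |sgn b| = 1 := by cases b <;> simp [sgn]

lemma kernel_eq (e : ℝ) (a c : Bool) :
    (if a = c then 1 - e else e) = (1 + (1 - 2 * e) * sgn a * sgn c) / 2 := by
  cases a <;> cases c <;> simp [sgn] <;> ring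

lemma kernel_sum (e : ℝ) (a : Bool) : ∑ c : Bool, (if a = c then 1 - e else e) = 1 := by
  cases a <;> simp

/-- marginalising the product kernel to one coordinate -/
lemma marg {n : ℕ} (e : ℝ) (x : Fin n → Bool) (i : Fin n) (c : Bool) :
    ∑ y : Fin n → Bool, (if y i = c then ∏ j, (if x j = y j then 1 - e else e) else 0)
      = if x i = c then 1 - e else e := by
  have h1 : ∀ y : Fin n → Bool,
      (if y i = c then ∏ j, (if x j = y j then 1 - e else e) else 0)
        = ∏ j, (if j = i then (if y j = c then (if x j = y j then 1 - e else e) else 0)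
            else (if x j = y j then 1 - e else e)) := by
    intro y
    by_cases h : y i = c
    · rw [if_pos h]
      apply Finset.prod_congr rfl
      intro j _
      by_cases hj : j = i
      · subst hj
        simp [h]
      · simp [hj]
    · rw [if_neg h]
      symm
      apply Finset.prod_eq_zero (Finset.mem_univ i)
      simp [h]
  simp_rw [h1]
  have h2 := (Finset.prod_univ_sum (fun _ : Fin n => (Finset.univ : Finset Bool))
      (fun j (c' : Bool) => (if j = i then (if c' = c then (if x j = c' then 1 - e else e) else 0)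
            else (if x j = c' then 1 - e else e)))).symm
  rw [Fintype.piFinset_univ] at h2
  rw [h2]
  have h3 : ∀ j : Fin n, (∑ c' : Bool, (if j = i then
      (if c' = c then (if x j = c' then 1 - e else e) else 0)
            else (if x j = c' then 1 - e else e)))
        = if j = i then (if x i = c then 1 - e else e) else 1 := by
    intro j
    by_cases hj : j = i
    · subst hj
      simp
    · simp only [hj, if_false]
      exact kernel_sum e (x j)
  simp_rw [h3]
  simp

/-- flipping coordinate `i` -/
def flip {n : ℕ} (i : Fin n) (x : Fin n → Bool) : Fin n → Bool := Function.update x i (!x i)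

lemma flip_flip {n : ℕ} (i : Fin n) (x : Fin n → Bool) : flip i (flip i x) = x := by
  funext j
  by_cases h : j = i
  · subst h
    simp [flip]
  · simp [flip, h]

def flipEquiv {n : ℕ} (i : Fin n) : (Fin n → Bool) ≃ (Fin n → Bool) :=
  ⟨flip i, flip i, flip_flip i, flip_flip i⟩

lemma sum_sgn {n : ℕ} (i : Fin n) : ∑ x : Fin n → Bool, sgn (x i) = 0 := by
  have h := Equiv.sum_comp (flipEquiv i) (fun x : Fin n → Bool => sgn (x i))
  have h2 : ∀ x : Fin n → Bool, sgn ((flipEquiv i) x i) = - sgn (x i) := by
    intro x
    simp [flipEquiv, flip, sgn_not]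
  simp_rw [h2] at h
  rw [Finset.sum_neg_distrib] at h
  linarith

lemma sum_sgn_mul {n : ℕ} {i j : Fin n} (hij : i ≠ j) :
    ∑ x : Fin n → Bool, sgn (x i) * sgn (x j) = 0 := by
  have h := Equiv.sum_comp (flipEquiv i) (fun x : Fin n → Bool => sgn (x i) * sgn (x j))
  have h2 : ∀ x : Fin n → Bool,
      sgn ((flipEquiv i) x i) * sgn ((flipEquiv i) x j) = - (sgn (x i) * sgn (x j)) := by
    intro x
    have hj : (flipEquiv i) x j = x j := by
      simp [flipEquiv, flip, Function.update_of_ne hij.symm]
    have hi : (flipEquiv i) x i = !x i := by simp [flipEquiv, flip]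
    rw [hj, hi, sgn_not]
    ring
  simp_rw [h2] at h
  rw [Finset.sum_neg_distrib] at h
  linarith

lemma card_cube (n : ℕ) : ∑ _x : Fin n → Bool, ((1 / 2 : ℝ) ^ n) = 1 := by
  simp [Finset.sum_const]

end Vale.Agent.P322
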