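import Mathlib
import Vale.Agent.P322.Cube

namespace Vale.Agent.P322

open Finset

/-- probability that `f X = b` -/
noncomputable def alpha {n : ℕ} (f : (Fin n → Bool) → Bool) (b : Bool) : ℝ :=
  ∑ x, if f x = b then (1 / 2 : ℝ) ^ n else 0

/-- `E [1_{f X = b} sgn X_i]` -/
noncomputable def beta {n : ℕ} (f : (Fin n → Bool) → Bool) (i : Fin n) (b : Bool) : ℝ :=
  ∑ x, if f x = b then (1 / 2 : ℝ) ^ n * sgn (x i) else 0

lemma alpha_nonneg {n : ℕ} (f : (Fin n → Bool) → Bool) (b : Bool) : 0 ≤ alpha f b := by
  unfold alpha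
  apply Finset.sum_nonneg
  intro x _
  split_ifs <;> positivity

lemma alpha_sum {n : ℕ} (f : (Fin n → Bool) → Bool) : alpha f true + alpha f false = 1 := by
  unfold alpha
  rw [← Finset.sum_add_distrib, ← card_cube n]
  apply Finset.sum_congr rfl
  intro x _
  cases f x <;> simp

lemma beta_sum {n : ℕ} (f : (Fin n → Bool) → Bool) (i : Fin n) :
    beta f i true + beta f i false = 0 := by
  unfold beta
  rw [← Finset.sum_add_distrib]
  have : ∀ x : Fin n → Bool, ((if f x = true then (1 / 2 : ℝ) ^ n * sgn (x i) else 0) +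
      (if f x = false then (1 / 2 : ℝ) ^ n * sgn (x i) else 0)) = (1 / 2 : ℝ) ^ n * sgn (x i) := by
    intro x
    cases f x <;> simp
  simp_rw [this]
  rw [← Finset.mul_sum, sum_sgn, mul_zero]

lemma abs_beta_le {n : ℕ} (f : (Fin n → Bool) → Bool) (i : Fin n) (b : Bool) :
    |beta f i b| ≤ alpha f b := by
  unfold beta alpha
  refine (Finset.abs_sum_le_sum_abs _ _).trans ?_
  apply Finset.sum_le_sum
  intro x _
  split_ifs
  · rw [abs_mul, abs_sgn, mul_one, abs_of_nonneg (by positivity)]
  · simp

/-- Bessel inequality for the level-one coefficients of the indicator of `{f = b}`. -/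
lemma bessel {n : ℕ} (f : (Fin n → Bool) → Bool) (b : Bool) :
    ∑ i, (beta f i b) ^ 2 ≤ alpha f b * (1 - alpha f b) := by
  set P : ℝ := (1 / 2 : ℝ) ^ n with hP
  set a := alpha f b with ha
  set ind : (Fin n → Bool) → ℝ := fun x => if f x = b then 1 else 0 with hind
  set L : (Fin n → Bool) → ℝ := fun x => ∑ i, beta f i b * sgn (x i) with hL
  have hPpos : 0 ≤ P := by positivity
  have hsumP : ∑ _x : Fin n → Bool, P = 1 := card_cube n
  have h_ind : ∑ x, P * ind x = a := by
    rw [ha, alpha]
    apply Finset.sum_congr rfl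
    intro x _
    simp only [hind]
    split_ifs <;> simp [hP]
  have h_ind2 : ∑ x, P * (ind x * ind x) = a := by
    rw [← h_ind]
    apply Finset.sum_congr rfl
    intro x _
    simp only [hind]
    split_ifs <;> simp
  have h_indL : ∑ x, P * (ind x * L x) = ∑ i, (beta f i b) ^ 2 := by
    have : ∀ x, P * (ind x * L x) = ∑ i, beta f i b * (P * ind x * sgn (x i)) := by
      intro x
      simp only [hL]
      rw [Finset.mul_sum, Finset.mul_sum]
      apply Finset.sum_congr rfl
      intro i _
      ring
    simp_rw [this]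
    rw [Finset.sum_comm]
    apply Finset.sum_congr rfl
    intro i _
    rw [← Finset.mul_sum, sq]
    congr 1
    rw [beta]
    apply Finset.sum_congr rfl
    intro x _
    simp only [hind]
    split_ifs <;> simp [hP]
  have h_L : ∑ x, P * L x = 0 := by
    have : ∀ x, P * L x = ∑ i, (P * beta f i b) * sgn (x i) := by
      intro x
      simp only [hL]
      rw [Finset.mul_sum]
      apply Finset.sum_congr rfl
      intro i _
      ring
    simp_rw [this]
    rw [Finset.sum_comm]
    apply Finset.sum_eq_zero
    intro i _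
    rw [← Finset.mul_sum, sum_sgn, mul_zero]
  have h_LL : ∑ x, P * (L x * L x) = ∑ i, (beta f i b) ^ 2 := by
    have : ∀ x, P * (L x * L x)
        = ∑ i, ∑ j, (beta f i b * beta f j b) * (P * (sgn (x i) * sgn (x j))) := by
      intro x
      simp only [hL]
      rw [Finset.sum_mul_sum, Finset.mul_sum]
      apply Finset.sum_congr rfl
      intro i _
      rw [Finset.mul_sum]
      apply Finset.sum_congr rfl
      intro j _
      ring
    simp_rw [this]
    rw [Finset.sum_comm]
    apply Finset.sum_congr rfl
    intro i _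
    rw [Finset.sum_comm]
    rw [Finset.sum_eq_single i]
    · rw [← Finset.mul_sum]
      simp_rw [sgn_sq, mul_one]
      rw [hsumP]
      ring
    · intro j _ hji
      rw [← Finset.mul_sum, ← Finset.mul_sum, sum_sgn_mul (Ne.symm hji)]
      ring
    · intro h
      exact absurd (Finset.mem_univ i) h
  have hnn : 0 ≤ ∑ x, P * ((ind x - a - L x) * (ind x - a - L x)) := by
    apply Finset.sum_nonneg
    intro x _
    exact mul_nonneg hPpos (mul_self_nonneg _)
  have hexp : ∑ x, P * ((ind x - a - L x) * (ind x - a - L x))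
      = ∑ x, P * (ind x * ind x) + a * a * ∑ _x : Fin n → Bool, P + ∑ x, P * (L x * L x)
        - 2 * a * ∑ x, P * ind x - 2 * ∑ x, P * (ind x * L x) + 2 * a * ∑ x, P * L x := by
    simp only [Finset.mul_sum]
    rw [← Finset.sum_add_distrib, ← Finset.sum_add_distrib, ← Finset.sum_sub_distrib,
      ← Finset.sum_sub_distrib, ← Finset.sum_add_distrib]
    apply Finset.sum_congr rfl
    intro x _
    ring
  rw [hexp, h_ind2, hsumP, h_LL, h_ind, h_indL, h_L] at hnn
  nlinarith

end Vale.Agent.P322
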