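import Mathlib

namespace Vale.Agent.P322

open Real

/-- `phi t = ln 2 - h((1+t)/2)` in nats. -/
noncomputable def phi (t : ℝ) : ℝ := ((1 + t) * log (1 + t) + (1 - t) * log (1 - t)) / 2

lemma phi_hasSum {t : ℝ} (h : |t| < 1) :
    HasSum (fun k : ℕ => t ^ (2 * k + 2) / ((2 * k + 1) * (2 * k + 2))) (phi t) := by
  have h1 := (hasSum_log_sub_log_of_abs_lt_one h).mul_left (t / 2)
  have ht2 : |t ^ 2| < 1 := by
    rw [abs_pow]
    exact pow_lt_one₀ (abs_nonneg t) h (by norm_num)
  have h2 := (hasSum_pow_div_log_of_abs_lt_one ht2).mul_left (-(1 / 2 : ℝ))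
  have h3 := h1.add h2
  have hlt := abs_lt.mp h
  have hp : 0 < 1 + t := by linarith [hlt.1]
  have hm : 0 < 1 - t := by linarith [hlt.2]
  have hlog : log (1 - t ^ 2) = log (1 + t) + log (1 - t) := by
    rw [← log_mul hp.ne' hm.ne']
    congr 1
    ring
  have hfun : (fun k : ℕ => t ^ (2 * k + 2) / ((2 * k + 1) * (2 * k + 2))) = fun b : ℕ =>
      t / 2 * (2 * (1 / (2 * (b : ℝ) + 1)) * t ^ (2 * b + 1)) +
        -(1 / 2) * ((t ^ 2) ^ (b + 1) / ((b : ℝ) + 1)) := by
    funext k
    have hk1 : (2 * (k : ℝ) + 1) ≠ 0 := by positivity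
    have hk2 : (2 * (k : ℝ) + 2) ≠ 0 := by positivity
    have hk3 : ((k : ℝ) + 1) ≠ 0 := by positivity
    field_simp
    ring
  have hval : phi t = t / 2 * (log (1 + t) - log (1 - t)) + -(1 / 2) * -log (1 - t ^ 2) := by
    rw [hlog, phi]
    ring
  rw [hfun, hval]
  exact h3

lemma phi_continuous : Continuous phi := by
  unfold phi
  have h1 : Continuous fun t : ℝ => (1 + t) * log (1 + t) :=
    continuous_mul_log.comp (continuous_const.add continuous_id)
  have h2 : Continuous fun t : ℝ => (1 - t) * log (1 - t) :=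
    continuous_mul_log.comp (continuous_const.sub continuous_id)
  exact (h1.add h2).div_const 2

lemma phi_scale_lt {r m : ℝ} (hr0 : 0 ≤ r) (hr1 : r < 1) (hm : |m| ≤ 1) :
    phi (r * m) ≤ m ^ 2 * phi r := by
  have hr : |r| < 1 := by rwa [abs_of_nonneg hr0]
  have hrm : |r * m| < 1 := by
    rw [abs_mul]
    calc |r| * |m| ≤ |r| * 1 := by gcongr
      _ < 1 := by simpa using hr
  have h1 := phi_hasSum hrm
  have h2 := (phi_hasSum hr).mul_left (m ^ 2)
  refine hasSum_le (fun k => ?_) h1 h2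
  have hm2 : m ^ 2 ≤ 1 := by
    have := sq_abs m
    nlinarith [abs_nonneg m]
  have hmk : (m ^ 2) ^ k ≤ 1 := pow_le_one₀ (sq_nonneg m) hm2
  have hden : 0 < (2 * (k : ℝ) + 1) * (2 * k + 2) := by positivity
  rw [← mul_div_assoc]
  apply div_le_div_of_nonneg_right _ hden.le
  have e1 : (r * m) ^ (2 * k + 2) = (m ^ 2 * r ^ (2 * k + 2)) * (m ^ 2) ^ k := by
    rw [mul_pow, ← pow_mul]
    ring
  rw [e1]
  have hnn : 0 ≤ m ^ 2 * r ^ (2 * k + 2) := by positivity
  nlinarith

lemma phi_scale {r m : ℝ} (hr0 : 0 ≤ r) (hr1 : r ≤ 1) (hm : |m| ≤ 1) :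
    phi (r * m) ≤ m ^ 2 * phi r := by
  rcases lt_or_eq_of_le hr1 with h | h
  · exact phi_scale_lt hr0 h hm
  · subst h
    have hc : Continuous fun r : ℝ => m ^ 2 * phi r - phi (r * m) :=
      (continuous_const.mul phi_continuous).sub
        (phi_continuous.comp (continuous_id.mul continuous_const))
    have hcl : (1 : ℝ) ∈ closure (Set.Ico (0 : ℝ) 1) := by
      rw [closure_Ico (by norm_num)]
      exact ⟨by norm_num, le_refl _⟩
    have hsub : Set.Ico (0 : ℝ) 1 ⊆ {r : ℝ | 0 ≤ m ^ 2 * phi r - phi (r * m)} := by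
      intro r hr
      have := phi_scale_lt hr.1 hr.2 hm
      simp only [Set.mem_setOf_eq]
      linarith
    have hclosed : IsClosed {r : ℝ | 0 ≤ m ^ 2 * phi r - phi (r * m)} :=
      isClosed_le continuous_const hc
    have := (closure_minimal hsub hclosed) hcl
    simp only [Set.mem_setOf_eq] at this
    linarith

lemma phi_nonneg {t : ℝ} (h : |t| ≤ 1) : 0 ≤ phi t := by
  have h0 : phi 0 = 0 := by simp [phi]
  have := phi_scale (r := 1) (m := 0) (by norm_num) (by norm_num) (by simp)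
  rcases lt_or_eq_of_le h with h' | h'
  · exact (phi_hasSum h').nonneg (fun k => by
      have : t ^ (2 * k + 2) = (t ^ 2) ^ (k + 1) := by rw [← pow_mul]; ring_nf
      rw [this]
      positivity)
  · rcases abs_eq (by norm_num : (0 : ℝ) ≤ 1) |>.mp h' with h1 | h1
    · subst h1
      simp only [phi]
      norm_num
      positivity
    · subst h1
      simp only [phi]
      norm_num
      positivity

lemma phi_one_sub_two_mul (e : ℝ) (h0 : 0 ≤ e) (h1 : e ≤ 1) :
    phi (1 - 2 * e) = log 2 - binEntropy e := by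
  unfold phi binEntropy
  have e1 : 1 + (1 - 2 * e) = 2 * (1 - e) := by ring
  have e2 : 1 - (1 - 2 * e) = 2 * e := by ring
  rw [e1, e2]
  rcases eq_or_lt_of_le h0 with h | h
  · subst h
    simp
  rcases eq_or_lt_of_le h1 with h' | h'
  · subst h'
    simp
  have hm : 0 < 1 - e := by linarith
  rw [log_mul (by norm_num) hm.ne', log_mul (by norm_num) h.ne', log_inv, log_inv]
  ring

end Vale.Agent.P322
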