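import Mathlib
import Vale.Agent.P322.Defs
import Vale.Agent.P322.Phi
import Vale.Agent.P322.Cube

namespace Vale.Agent.P322

open Finset

/-- inverse hyperbolic tangent, the derivative of `phi` -/
noncomputable def At (t : ℝ) : ℝ := (Real.log (1 + t) - Real.log (1 - t)) / 2

/-- edge cost -/
noncomputable def cc (a b : ℝ) : ℝ := (a - b) * (At a - At b) / 4

/-- the quadratic profile -/
noncomputable def Gq (s : ℝ) : ℝ := 2 * s + 2 / 3 * s ^ 2

/-- uniform average on the cube -/
noncomputable def avg {n : ℕ} (g : (Fin n → Bool) → ℝ) : ℝ := (1 / 2 : ℝ) ^ n * ∑ y, g y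

/-- phi-entropy of a function on the cube -/
noncomputable def ent {n : ℕ} (u : (Fin n → Bool) → ℝ) : ℝ :=
  avg (fun y => phi (u y)) - phi (avg u)

/-- Dirichlet-type energy -/
noncomputable def energy {n : ℕ} (u : (Fin n → Bool) → ℝ) : ℝ :=
  ∑ i, avg (fun y => cc (u y) (u (flip i y)))

/-- noise kernel with correlation `r` -/
noncomputable def ker {n : ℕ} (r : ℝ) (x y : Fin n → Bool) : ℝ :=
  ∏ j, ((1 + r * sgn (x j) * sgn (y j)) / 2)

/-- noise operator -/
noncomputable def noisy {n : ℕ} (F : (Fin n → Bool) → ℝ) (r : ℝ) (y : Fin n → Bool) : ℝ :=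
  ∑ x, ker r x y * F x

end Vale.Agent.P322
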