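import Mathlib
import Vale.Agent.P322.GDefs

namespace Vale.Agent.P322

open Real

lemma hasDerivAt_At {t : ℝ} (h : |t| < 1) : HasDerivAt At (1 / (1 - t ^ 2)) t := by
  have h' := abs_lt.mp h
  have a : 0 < 1 + t := by linarith [h'.1]
  have b : 0 < 1 - t := by linarith [h'.2]
  have h1 : HasDerivAt (fun s : ℝ => log (1 + s)) (1 / (1 + t)) t :=
    ((hasDerivAt_id t).const_add 1).log a.ne'
  have h2 : HasDerivAt (fun s : ℝ => log (1 - s)) (-1 / (1 - t)) t :=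
    ((hasDerivAt_id t).const_sub 1).log b.ne'
  have h3 := (h1.sub h2).div_const 2
  have e : (1 / (1 + t) - -1 / (1 - t)) / 2 = 1 / (1 - t ^ 2) := by
    have hs : (1 - t ^ 2) = (1 + t) * (1 - t) := by ring
    rw [hs]
    field_simp
    ring
  exact h3.congr_deriv e

lemma hasDerivAt_phi {t : ℝ} (h : |t| < 1) : HasDerivAt phi (At t) t := by
  have h' := abs_lt.mp h
  have a : 0 < 1 + t := by linarith [h'.1]
  have b : 0 < 1 - t := by linarith [h'.2]
  have h1 : HasDerivAt (fun s : ℝ => log (1 + s)) (1 / (1 + t)) t :=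
    ((hasDerivAt_id t).const_add 1).log a.ne'
  have h2 : HasDerivAt (fun s : ℝ => log (1 - s)) (-1 / (1 - t)) t :=
    ((hasDerivAt_id t).const_sub 1).log b.ne'
  have g1 : HasDerivAt (fun s : ℝ => 1 + s) 1 t := (hasDerivAt_id t).const_add 1
  have g2 : HasDerivAt (fun s : ℝ => 1 - s) (-1) t := (hasDerivAt_id t).const_sub 1
  have h3 := ((g1.mul h1).add (g2.mul h2)).div_const 2
  have e : (1 * log (1 + t) + (1 + t) * (1 / (1 + t)) + (-1 * log (1 - t) + (1 - t) * (-1 / (1 - t)))) / 2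
      = At t := by
    unfold At
    field_simp
    ring
  exact h3.congr_deriv e

/-- a function vanishing at `0` with nonnegative derivative on `[0,1)` is nonnegative there -/
lemma nonneg_of_deriv {f f' : ℝ → ℝ} (h0 : f 0 = 0)
    (hd : ∀ t, 0 ≤ t → t < 1 → HasDerivAt f (f' t) t)
    (hpos : ∀ t, 0 ≤ t → t < 1 → 0 ≤ f' t) : ∀ t, 0 ≤ t → t < 1 → 0 ≤ f t := by
  have hmono : MonotoneOn f (Set.Ico 0 1) := by
    apply monotoneOn_of_deriv_nonneg (convex_Ico 0 1)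
    · intro t ht
      exact (hd t ht.1 ht.2).continuousAt.continuousWithinAt
    · intro t ht
      rw [interior_Ico] at ht
      exact (hd t ht.1.le ht.2).differentiableAt.differentiableWithinAt
    · intro t ht
      rw [interior_Ico] at ht
      rw [(hd t ht.1.le ht.2).deriv]
      exact hpos t ht.1.le ht.2
  intro t ht0 ht1
  have := hmono (show (0 : ℝ) ∈ Set.Ico 0 1 by simp) (show t ∈ Set.Ico 0 1 from ⟨ht0, ht1⟩) ht0
  rwa [h0] at this

lemma At_zero : At 0 = 0 := by simp [At]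

lemma phi_zero : phi 0 = 0 := by simp [phi]

lemma abs_lt_of {t : ℝ} (h0 : 0 ≤ t) (h1 : t < 1) : |t| < 1 := by
  rwa [abs_of_nonneg h0]

lemma one_sub_sq_pos {t : ℝ} (h0 : 0 ≤ t) (h1 : t < 1) : 0 < 1 - t ^ 2 := by nlinarith

lemma At_nonneg {t : ℝ} (h0 : 0 ≤ t) (h1 : t < 1) : 0 ≤ At t := by
  refine nonneg_of_deriv (f := At) (f' := fun t => 1 / (1 - t ^ 2)) At_zero
    (fun s hs0 hs1 => hasDerivAt_At (abs_lt_of hs0 hs1)) ?_ t h0 h1
  intro s hs0 hs1
  have := one_sub_sq_pos hs0 hs1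
  positivity

lemma hasDerivAt_rat {t : ℝ} (h0 : 0 ≤ t) (h1 : t < 1) :
    HasDerivAt (fun s : ℝ => s / (1 - s ^ 2)) ((1 + t ^ 2) / (1 - t ^ 2) ^ 2) t := by
  have hs := one_sub_sq_pos h0 h1
  have g : HasDerivAt (fun s : ℝ => 1 - s ^ 2) (-(2 * t)) t := by
    have := (hasDerivAt_pow 2 t).const_sub 1
    simpa using this
  have h := (hasDerivAt_id t).div g hs.ne'
  have e : (1 * (1 - t ^ 2) - id t * -(2 * t)) / (1 - t ^ 2) ^ 2 = (1 + t ^ 2) / (1 - t ^ 2) ^ 2 := by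
    simp only [id]
    ring
  exact h.congr_deriv e

lemma k1_nonneg {t : ℝ} (h0 : 0 ≤ t) (h1 : t < 1) : 0 ≤ t / (1 - t ^ 2) - At t := by
  refine nonneg_of_deriv (f := fun t => t / (1 - t ^ 2) - At t)
    (f' := fun t => (1 + t ^ 2) / (1 - t ^ 2) ^ 2 - 1 / (1 - t ^ 2)) (by simp [At_zero])
    (fun s hs0 hs1 => (hasDerivAt_rat hs0 hs1).sub (hasDerivAt_At (abs_lt_of hs0 hs1))) ?_ t h0 h1
  intro s hs0 hs1
  have hs := one_sub_sq_pos hs0 hs1
  have e : (1 + s ^ 2) / (1 - s ^ 2) ^ 2 - 1 / (1 - s ^ 2) = 2 * s ^ 2 / (1 - s ^ 2) ^ 2 := by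
    field_simp
    ring
  rw [e]
  positivity

lemma hasDerivAt_rat2 {t : ℝ} (h0 : 0 ≤ t) (h1 : t < 1) :
    HasDerivAt (fun s : ℝ => s ^ 2 / (1 - s ^ 2)) (2 * t / (1 - t ^ 2) ^ 2) t := by
  have hs := one_sub_sq_pos h0 h1
  have g : HasDerivAt (fun s : ℝ => 1 - s ^ 2) (-(2 * t)) t := by
    have := (hasDerivAt_pow 2 t).const_sub 1
    simpa using this
  have g2 : HasDerivAt (fun s : ℝ => s ^ 2) (2 * t) t := by
    have := hasDerivAt_pow 2 t
    simpa using this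
  have h := g2.div g hs.ne'
  have e : (2 * t * (1 - t ^ 2) - t ^ 2 * -(2 * t)) / (1 - t ^ 2) ^ 2 = 2 * t / (1 - t ^ 2) ^ 2 := by
    ring
  exact h.congr_deriv e

lemma k2_nonneg {t : ℝ} (h0 : 0 ≤ t) (h1 : t < 1) : 0 ≤ t ^ 2 / (1 - t ^ 2) - At t ^ 2 := by
  refine nonneg_of_deriv (f := fun t => t ^ 2 / (1 - t ^ 2) - At t ^ 2)
    (f' := fun t => 2 * t / (1 - t ^ 2) ^ 2 - 2 * At t * (1 / (1 - t ^ 2))) (by simp [At_zero])
    (fun s hs0 hs1 => ?_) ?_ t h0 h1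
  · have h := (hasDerivAt_rat2 hs0 hs1).sub ((hasDerivAt_At (abs_lt_of hs0 hs1)).pow 2)
    refine h.congr_deriv ?_
    simp
  · intro s hs0 hs1
    have hs := one_sub_sq_pos hs0 hs1
    have e : 2 * s / (1 - s ^ 2) ^ 2 - 2 * At s * (1 / (1 - s ^ 2))
        = 2 / (1 - s ^ 2) * (s / (1 - s ^ 2) - At s) := by
      field_simp
    rw [e]
    have := k1_nonneg hs0 hs1
    positivity

lemma k3_nonneg {t : ℝ} (h0 : 0 ≤ t) (h1 : t < 1) :
    0 ≤ t / (1 - t ^ 2) - At t - 2 / 3 * At t ^ 3 := by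
  refine nonneg_of_deriv (f := fun t => t / (1 - t ^ 2) - At t - 2 / 3 * At t ^ 3)
    (f' := fun t => (1 + t ^ 2) / (1 - t ^ 2) ^ 2 - 1 / (1 - t ^ 2)
      - 2 / 3 * (3 * At t ^ 2 * (1 / (1 - t ^ 2)))) (by simp [At_zero])
    (fun s hs0 hs1 => ?_) ?_ t h0 h1
  · have hA := hasDerivAt_At (abs_lt_of hs0 hs1)
    have h := ((hasDerivAt_rat hs0 hs1).sub hA).sub ((hA.pow 3).const_mul (2 / 3))
    refine h.congr_deriv ?_
    simp
  · intro s hs0 hs1
    have hs := one_sub_sq_pos hs0 hs1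
    have e : (1 + s ^ 2) / (1 - s ^ 2) ^ 2 - 1 / (1 - s ^ 2)
      - 2 / 3 * (3 * At s ^ 2 * (1 / (1 - s ^ 2)))
        = 2 / (1 - s ^ 2) * (s ^ 2 / (1 - s ^ 2) - At s ^ 2) := by
      field_simp
      ring
    rw [e]
    have := k2_nonneg hs0 hs1
    positivity

lemma k4_nonneg {t : ℝ} (h0 : 0 ≤ t) (h1 : t < 1) : 0 ≤ At t ^ 2 / 2 - phi t := by
  refine nonneg_of_deriv (f := fun t => At t ^ 2 / 2 - phi t)
    (f' := fun t => (2 * At t * (1 / (1 - t ^ 2))) / 2 - At t) (by simp [At_zero, phi_zero])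
    (fun s hs0 hs1 => ?_) ?_ t h0 h1
  · have hA := hasDerivAt_At (abs_lt_of hs0 hs1)
    have h := ((hA.pow 2).div_const 2).sub (hasDerivAt_phi (abs_lt_of hs0 hs1))
    refine h.congr_deriv ?_
    simp
  · intro s hs0 hs1
    have hs := one_sub_sq_pos hs0 hs1
    have e : (2 * At s * (1 / (1 - s ^ 2))) / 2 - At s = At s * (s ^ 2 / (1 - s ^ 2)) := by
      field_simp
      ring
    rw [e]
    have := At_nonneg hs0 hs1
    positivity

lemma psi_ge_nonneg {t : ℝ} (h0 : 0 ≤ t) (h1 : t < 1) : Gq (phi t) ≤ t * At t := by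
  have key : 0 ≤ t * At t - 2 * phi t - 2 / 3 * phi t ^ 2 := by
    refine nonneg_of_deriv (f := fun t => t * At t - 2 * phi t - 2 / 3 * phi t ^ 2)
      (f' := fun t => (1 * At t + t * (1 / (1 - t ^ 2))) - 2 * At t
        - 2 / 3 * (2 * phi t * At t)) (by simp [At_zero, phi_zero])
      (fun s hs0 hs1 => ?_) ?_ t h0 h1
    · have hA := hasDerivAt_At (abs_lt_of hs0 hs1)
      have hP := hasDerivAt_phi (abs_lt_of hs0 hs1)
      have h := (((hasDerivAt_id s).mul hA).sub (hP.const_mul 2)).sub ((hP.pow 2).const_mul (2 / 3))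
      refine h.congr_deriv ?_
      simp
    · intro s hs0 hs1
      have hs := one_sub_sq_pos hs0 hs1
      have a0 := At_nonneg hs0 hs1
      have c3 := k3_nonneg hs0 hs1
      have c4 := k4_nonneg hs0 hs1
      have e : (1 * At s + s * (1 / (1 - s ^ 2))) - 2 * At s - 2 / 3 * (2 * phi s * At s)
          = (s / (1 - s ^ 2) - At s - 2 / 3 * At s ^ 3) + 4 / 3 * (At s * (At s ^ 2 / 2 - phi s)) := by
        ring
      rw [e]
      have := mul_nonneg a0 c4
      linarith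
  unfold Gq
  linarith

lemma phi_neg (t : ℝ) : phi (-t) = phi t := by
  unfold phi
  ring_nf

lemma At_neg (t : ℝ) : At (-t) = - At t := by
  unfold At
  ring_nf

/-- one-variable inequality: `t artanh t ≥ 2 phi t + (2/3) (phi t)^2`. -/
lemma psi_ge {t : ℝ} (h : |t| < 1) : Gq (phi t) ≤ t * At t := by
  rcases le_total 0 t with h0 | h0
  · exact psi_ge_nonneg h0 (abs_lt.mp h).2
  · have := psi_ge_nonneg (t := -t) (by linarith) (by linarith [(abs_lt.mp h).1])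
    rw [phi_neg, At_neg] at this
    linarith

lemma j1_nonneg {t : ℝ} (h0 : 0 ≤ t) (h1 : t < 1) : 0 ≤ At t - 36 * t / (6 - t ^ 2) ^ 2 := by
  refine nonneg_of_deriv (f := fun t => At t - 36 * t / (6 - t ^ 2) ^ 2)
    (f' := fun t => 1 / (1 - t ^ 2) - 36 * (6 + 3 * t ^ 2) / (6 - t ^ 2) ^ 3) (by simp [At_zero])
    (fun s hs0 hs1 => ?_) ?_ t h0 h1
  · have hA := hasDerivAt_At (abs_lt_of hs0 hs1)
    have h6 : 0 < 6 - s ^ 2 := by nlinarith
    have g : HasDerivAt (fun s : ℝ => 6 - s ^ 2) (-(2 * s)) s := by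
      have := (hasDerivAt_pow 2 s).const_sub 6
      simpa using this
    have g2 := g.fun_pow 2
    have g3 : HasDerivAt (fun s : ℝ => 36 * s) 36 s := by
      have := (hasDerivAt_id s).const_mul 36
      simpa using this
    have hs := one_sub_sq_pos hs0 hs1
    have h := hA.fun_sub (g3.fun_div g2 (by positivity))
    refine h.congr_deriv ?_
    simp only [Nat.cast_ofNat, Nat.add_one_sub_one, pow_one]
    field_simp
    ring
  · intro s hs0 hs1
    have hs := one_sub_sq_pos hs0 hs1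
    have h6 : 0 < 6 - s ^ 2 := by nlinarith
    rw [sub_nonneg, div_le_div_iff₀ (by positivity) hs]
    nlinarith [sq_nonneg s, sq_nonneg (s ^ 2), mul_nonneg (sq_nonneg (s ^ 2)) hs.le,
      pow_nonneg hs0 4, pow_nonneg hs0 6]

lemma phi_ge_rat_lt {t : ℝ} (h0 : 0 ≤ t) (h1 : t < 1) : 0 ≤ phi t - 3 * t ^ 2 / (6 - t ^ 2) := by
  refine nonneg_of_deriv (f := fun t => phi t - 3 * t ^ 2 / (6 - t ^ 2))
    (f' := fun t => At t - 36 * t / (6 - t ^ 2) ^ 2) (by simp [phi_zero])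
    (fun s hs0 hs1 => ?_) (fun s hs0 hs1 => j1_nonneg hs0 hs1) t h0 h1
  have hP := hasDerivAt_phi (abs_lt_of hs0 hs1)
  have h6 : 0 < 6 - s ^ 2 := by nlinarith
  have g : HasDerivAt (fun s : ℝ => 6 - s ^ 2) (-(2 * s)) s := by
    have := (hasDerivAt_pow 2 s).const_sub 6
    simpa using this
  have g3 : HasDerivAt (fun s : ℝ => 3 * s ^ 2) (3 * (2 * s)) s := by
    have := (hasDerivAt_pow 2 s).const_mul 3
    simpa using this
  have h := hP.fun_sub (g3.fun_div g h6.ne')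
  refine h.congr_deriv ?_
  field_simp
  ring

/-- `3 r^2 / (6 - r^2) ≤ phi r` on `[0,1]`. -/
lemma phi_ge_rat {r : ℝ} (h0 : 0 ≤ r) (h1 : r ≤ 1) : 3 * r ^ 2 / (6 - r ^ 2) ≤ phi r := by
  rcases lt_or_eq_of_le h1 with h | h
  · linarith [phi_ge_rat_lt h0 h]
  · subst h
    have : phi 1 = log 2 := by
      unfold phi
      norm_num
    rw [this]
    have := Real.log_two_gt_d9
    norm_num
    linarith

end Vale.Agent.P322
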