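import Mathlib
import Vale.Agent.P322.GDefs
import Vale.Agent.P322.OneVar

namespace Vale.Agent.P322

open Finset Real

lemma ker_comm {n : ℕ} (r : ℝ) (x y : Fin n → Bool) : ker r x y = ker r y x := by
  unfold ker
  apply Finset.prod_congr rfl
  intro j _
  ring

lemma ker_sum_right {n : ℕ} (r : ℝ) (x : Fin n → Bool) : ∑ y, ker r x y = 1 := by
  unfold ker
  have h2 := (Finset.prod_univ_sum (fun _ : Fin n => (Finset.univ : Finset Bool))
      (fun j (c : Bool) => ((1 + r * sgn (x j) * sgn c) / 2))).symm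
  rw [Fintype.piFinset_univ] at h2
  rw [h2]
  apply Finset.prod_eq_one
  intro j _
  rw [Fintype.sum_bool]
  simp [sgn]
  ring

lemma ker_sum_left {n : ℕ} (r : ℝ) (y : Fin n → Bool) : ∑ x, ker r x y = 1 := by
  simp_rw [ker_comm r _ y]
  exact ker_sum_right r y

lemma ker_pos {n : ℕ} {r : ℝ} (h0 : 0 ≤ r) (h1 : r < 1) (x y : Fin n → Bool) : 0 < ker r x y := by
  unfold ker
  apply Finset.prod_pos
  intro j _
  cases x j <;> cases y j <;> simp [sgn] <;> linarith

lemma ker_one {n : ℕ} (x y : Fin n → Bool) : ker 1 x y = if x = y then 1 else 0 := by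
  unfold ker
  by_cases h : x = y
  · subst h
    rw [if_pos rfl]
    apply Finset.prod_eq_one
    intro j _
    rw [one_mul, sgn_sq]
    norm_num
  · rw [if_neg h]
    have : ∃ j, x j ≠ y j := by
      by_contra hcon
      push Not at hcon
      exact h (funext hcon)
    obtain ⟨j, hj⟩ := this
    apply Finset.prod_eq_zero (Finset.mem_univ j)
    revert hj
    cases x j <;> cases y j <;> simp [sgn]

lemma noisy_one {n : ℕ} (F : (Fin n → Bool) → ℝ) : noisy F 1 = F := by
  funext y
  unfold noisy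
  simp_rw [ker_one]
  simp

lemma avg_noisy {n : ℕ} (F : (Fin n → Bool) → ℝ) (r : ℝ) : avg (noisy F r) = avg F := by
  unfold avg noisy
  rw [Finset.sum_comm]
  congr 1
  apply Finset.sum_congr rfl
  intro x _
  rw [← Finset.sum_mul, ker_sum_right, one_mul]

lemma continuous_noisy {n : ℕ} (F : (Fin n → Bool) → ℝ) (y : Fin n → Bool) :
    Continuous (fun r => noisy F r y) := by
  unfold noisy ker
  fun_prop

lemma ker_split {n : ℕ} (r : ℝ) (x y : Fin n → Bool) (i : Fin n) :
    ker r x y = ((1 + r * sgn (x i) * sgn (y i)) / 2)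
      * ∏ j ∈ Finset.univ.erase i, ((1 + r * sgn (x j) * sgn (y j)) / 2) := by
  unfold ker
  exact (Finset.mul_prod_erase Finset.univ (fun j => (1 + r * sgn (x j) * sgn (y j)) / 2)
    (Finset.mem_univ i)).symm

lemma ker_split_flip {n : ℕ} (r : ℝ) (x y : Fin n → Bool) (i : Fin n) :
    ker r x (flip i y) = ((1 - r * sgn (x i) * sgn (y i)) / 2)
      * ∏ j ∈ Finset.univ.erase i, ((1 + r * sgn (x j) * sgn (y j)) / 2) := by
  rw [ker_split r x (flip i y) i]
  congr 1
  · simp [flip, sgn_not]
    ring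
  · apply Finset.prod_congr rfl
    intro j hj
    have hji : j ≠ i := (Finset.mem_erase.mp hj).1
    simp [flip, Function.update_of_ne hji]

lemma hasDerivAt_ker {n : ℕ} (r : ℝ) (hr : r ≠ 0) (x y : Fin n → Bool) :
    HasDerivAt (fun s => ker s x y) ((∑ i, (ker r x y - ker r x (flip i y)) / 2) / r) r := by
  unfold ker
  have h : ∀ j ∈ (Finset.univ : Finset (Fin n)),
      HasDerivAt (fun s : ℝ => (1 + s * sgn (x j) * sgn (y j)) / 2) (sgn (x j) * sgn (y j) / 2) r := by
    intro j _
    have h1 : HasDerivAt (fun s : ℝ => s * sgn (x j) * sgn (y j)) (sgn (x j) * sgn (y j)) r := by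
      have := ((hasDerivAt_id r).mul_const (sgn (x j))).mul_const (sgn (y j))
      simpa using this
    exact (h1.const_add 1).div_const 2
  have h2 := HasDerivAt.fun_finsetProd h
  refine h2.congr_deriv ?_
  rw [Finset.sum_div]
  apply Finset.sum_congr rfl
  intro i _
  have e1 := ker_split r x y i
  have e2 := ker_split_flip r x y i
  unfold ker at e1 e2
  rw [e1, e2, smul_eq_mul]
  field_simp
  ring

/-- `r d/dr T_r F = L T_r F` -/
lemma hasDerivAt_noisy {n : ℕ} (F : (Fin n → Bool) → ℝ) (r : ℝ) (hr : r ≠ 0) (y : Fin n → Bool) :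
    HasDerivAt (fun s => noisy F s y)
      ((∑ i, (noisy F r y - noisy F r (flip i y)) / 2) / r) r := by
  unfold noisy
  have h := HasDerivAt.fun_sum (u := Finset.univ)
    (fun x (_ : x ∈ (Finset.univ : Finset (Fin n → Bool))) => (hasDerivAt_ker r hr x y).mul_const (F x))
  refine h.congr_deriv ?_
  have e : ∀ x : Fin n → Bool, (∑ i, (ker r x y - ker r x (flip i y)) / 2) / r * F x
      = ∑ i, ((ker r x y * F x - ker r x (flip i y) * F x) / 2) / r := by
    intro x
    rw [Finset.sum_div, Finset.sum_mul]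
    apply Finset.sum_congr rfl
    intro i _
    ring
  simp_rw [e]
  rw [Finset.sum_comm, Finset.sum_div]
  apply Finset.sum_congr rfl
  intro i _
  rw [← Finset.sum_div, ← Finset.sum_div, Finset.sum_sub_distrib]

lemma sum_flip {n : ℕ} (i : Fin n) (g : (Fin n → Bool) → ℝ) : ∑ y, g (flip i y) = ∑ y, g y :=
  Equiv.sum_comp (flipEquiv i) g

lemma energy_eq {n : ℕ} (u : (Fin n → Bool) → ℝ) :
    energy u = avg (fun y => At (u y) * ∑ i, (u y - u (flip i y)) / 2) := by
  unfold energy avg
  rw [← Finset.mul_sum]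
  congr 1
  simp_rw [Finset.mul_sum]
  rw [Finset.sum_comm (s := (Finset.univ : Finset (Fin n → Bool)))]
  apply Finset.sum_congr rfl
  intro i _
  have h1 := sum_flip i (fun y => At (u y) * ((u y - u (flip i y)) / 2))
  simp only [flip_flip] at h1
  have h2 : ∀ y, cc (u y) (u (flip i y))
      = (At (u y) * ((u y - u (flip i y)) / 2) + At (u (flip i y)) * ((u (flip i y) - u y) / 2)) / 2 := by
    intro y
    unfold cc
    ring
  simp_rw [h2]
  rw [← Finset.sum_div, Finset.sum_add_distrib, h1]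
  ring

/-- de Bruijn type identity -/
theorem hasDerivAt_ent_noisy {n : ℕ} (F : (Fin n → Bool) → ℝ) (r : ℝ) (hr : r ≠ 0)
    (hlt : ∀ y, |noisy F r y| < 1) :
    HasDerivAt (fun s => ent (noisy F s)) (energy (noisy F r) / r) r := by
  unfold ent
  simp_rw [avg_noisy]
  have h1 : ∀ y ∈ (Finset.univ : Finset (Fin n → Bool)),
      HasDerivAt (fun s => phi (noisy F s y))
        (At (noisy F r y) * ((∑ i, (noisy F r y - noisy F r (flip i y)) / 2) / r)) r := by
    intro y _
    exact (hasDerivAt_phi (hlt y)).comp r (hasDerivAt_noisy F r hr y)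
  have h2 := ((HasDerivAt.fun_sum h1).const_mul ((1 / 2 : ℝ) ^ n)).sub_const (phi (avg F))
  unfold avg at *
  refine h2.congr_deriv ?_
  rw [energy_eq]
  unfold avg
  rw [mul_div_assoc, Finset.sum_div]
  congr 1
  apply Finset.sum_congr rfl
  intro y _
  ring

end Vale.Agent.P322
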