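import Mathlib
import Vale.Agent.P322.GDefs
import Vale.Agent.P322.Bessel
import Vale.Agent.P322.Deriv

namespace Vale.Agent.P322

open Finset Real

lemma jointXY_eq {n : ℕ} (e : ℝ) (x y : Fin n → Bool) :
    jointXY n e x y = (1 / 2 : ℝ) ^ n * ker (1 - 2 * e) x y := by
  unfold jointXY ker
  congr 1
  apply Finset.prod_congr rfl
  intro j _
  exact kernel_eq e (x j) (y j)

lemma jointFY_eq {n : ℕ} (f : (Fin n → Bool) → Bool) (e : ℝ) (b : Bool) (y : Fin n → Bool) :
    jointFY f e b y
      = (1 / 2 : ℝ) ^ n * ((1 + sgn b * noisy (fun x => sgn (f x)) (1 - 2 * e) y) / 2) := by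
  unfold jointFY noisy
  have h : ∀ x : Fin n → Bool, (if f x = b then jointXY n e x y else 0)
      = (1 / 2 : ℝ) ^ n * ((ker (1 - 2 * e) x y + sgn b * (ker (1 - 2 * e) x y * sgn (f x))) / 2) := by
    intro x
    rw [jointXY_eq]
    cases f x <;> cases b <;> simp [sgn]
  simp_rw [h]
  rw [← Finset.mul_sum, ← Finset.sum_div, Finset.sum_add_distrib, ker_sum_left, ← Finset.mul_sum]

lemma jointFY_nonneg {n : ℕ} (f : (Fin n → Bool) → Bool) (e : ℝ) (he0 : 0 ≤ e) (he1 : e ≤ 1 / 2)
    (b : Bool) (y : Fin n → Bool) : 0 ≤ jointFY f e b y := by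
  unfold jointFY jointXY
  apply Finset.sum_nonneg
  intro x _
  split_ifs
  · apply mul_nonneg (by positivity)
    apply Finset.prod_nonneg
    intro j _
    split_ifs <;> linarith
  · exact le_rfl

lemma term_eq {c X M : ℝ} (hc : 0 < c) (h : M = 0 → X = 0) :
    c * (X / 2) * Real.logb 2 (c * (X / 2) / ((M / 2) * c))
      = c * ((X / 2) * log X - (X / 2) * log M) / log 2 := by
  by_cases hx : X = 0
  · subst hx
    simp
  · have hm : M ≠ 0 := fun hm => hx (h hm)
    have e1 : c * (X / 2) / ((M / 2) * c) = X / M := by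
      field_simp
    rw [e1, Real.logb, log_div hx hm]
    ring

/-- mutual information of `(f X, Y)` in terms of the noise operator -/
theorem mi_eq {n : ℕ} (f : (Fin n → Bool) → Bool) (e : ℝ) (he0 : 0 ≤ e) (he1 : e ≤ 1 / 2) :
    mutualInfoBits (jointFY f e) = ent (noisy (fun x => sgn (f x)) (1 - 2 * e)) / Real.log 2 := by
  set u := noisy (fun x => sgn (f x)) (1 - 2 * e) with hu
  set c : ℝ := (1 / 2 : ℝ) ^ n with hc
  have hc0 : 0 < c := by positivity
  set mu := avg u with hmu
  have hj : ∀ b y, jointFY f e b y = c * ((1 + sgn b * u y) / 2) := fun b y => jointFY_eq f e b y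
  have hX : ∀ b y, 0 ≤ 1 + sgn b * u y := by
    intro b y
    have := jointFY_nonneg f e he0 he1 b y
    rw [hj] at this
    have h2 : 0 ≤ (1 + sgn b * u y) / 2 := by
      by_contra hcon
      push Not at hcon
      have := mul_neg_of_pos_of_neg hc0 hcon
      linarith
    linarith
  have hrow : ∀ b, ∑ y, jointFY f e b y = (1 + sgn b * mu) / 2 := by
    intro b
    simp_rw [hj]
    have : ∀ y, c * ((1 + sgn b * u y) / 2) = (c + sgn b * (c * u y)) / 2 := by
      intro y
      ring
    simp_rw [this]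
    rw [← Finset.sum_div, Finset.sum_add_distrib, ← Finset.mul_sum, ← Finset.mul_sum, hc, card_cube,
      hmu, avg]
  have hcol : ∀ y, ∑ b, jointFY f e b y = c := by
    intro y
    rw [Fintype.sum_bool, hj, hj]
    simp [sgn]
    ring
  have hM : ∀ b, 0 ≤ 1 + sgn b * mu := by
    intro b
    have : 0 ≤ ∑ y, jointFY f e b y := Finset.sum_nonneg (fun y _ => jointFY_nonneg f e he0 he1 b y)
    rw [hrow] at this
    linarith
  have hMX : ∀ b y, 1 + sgn b * mu = 0 → 1 + sgn b * u y = 0 := by
    intro b y h0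
    have hs : ∑ y, jointFY f e b y = 0 := by
      rw [hrow, h0]
      simp
    have := (Finset.sum_eq_zero_iff_of_nonneg
      (fun y _ => jointFY_nonneg f e he0 he1 b y)).mp hs y (Finset.mem_univ y)
    rw [hj] at this
    rcases mul_eq_zero.mp this with h | h
    · exact absurd h hc0.ne'
    · linarith
  unfold mutualInfoBits
  simp_rw [hrow, hcol, hj]
  have ht : ∀ b y, c * ((1 + sgn b * u y) / 2)
      * Real.logb 2 (c * ((1 + sgn b * u y) / 2) / ((1 + sgn b * mu) / 2 * c))
      = c * (((1 + sgn b * u y) / 2) * log (1 + sgn b * u y)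
          - ((1 + sgn b * u y) / 2) * log (1 + sgn b * mu)) / log 2 :=
    fun b y => term_eq hc0 (hMX b y)
  simp_rw [ht]
  rw [Fintype.sum_bool, ← Finset.sum_div, ← Finset.sum_div, ← add_div, ← Finset.sum_add_distrib]
  congr 1
  unfold ent
  rw [← hmu]
  have hphi : phi mu = ∑ y, c * ((1 + u y) / 2 * log (1 + mu) + (1 - u y) / 2 * log (1 - mu)) := by
    have : ∀ y, c * ((1 + u y) / 2 * log (1 + mu) + (1 - u y) / 2 * log (1 - mu))
        = c * ((log (1 + mu) + log (1 - mu)) / 2) + (c * u y) * ((log (1 + mu) - log (1 - mu)) / 2) := by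
      intro y
      ring
    simp_rw [this]
    rw [Finset.sum_add_distrib, ← Finset.sum_mul, ← Finset.sum_mul, ← Finset.mul_sum, hc, card_cube]
    have hmu' : (1 / 2 : ℝ) ^ n * ∑ y, u y = mu := by rw [hmu, avg]
    rw [hmu']
    unfold phi
    ring
  rw [hphi, avg, ← hc, Finset.mul_sum, ← Finset.sum_sub_distrib]
  apply Finset.sum_congr rfl
  intro y _
  unfold phi
  simp [sgn]
  ring_nf

lemma phi_sgn (b : Bool) : phi (sgn b) = log 2 := by
  cases b <;> simp [sgn, phi] <;> norm_num

lemma avg_const {n : ℕ} (c : ℝ) : avg (fun _ : Fin n → Bool => c) = c := by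
  rw [avg, Finset.mul_sum, ← Finset.sum_mul, card_cube, one_mul]

lemma avg_sgn {n : ℕ} (f : (Fin n → Bool) → Bool) :
    avg (fun x => sgn (f x)) = 1 - 2 * alpha f false := by
  have h := alpha_sum f
  have h2 : avg (fun x => sgn (f x)) = alpha f true - alpha f false := by
    unfold avg alpha
    rw [Finset.mul_sum, ← Finset.sum_sub_distrib]
    apply Finset.sum_congr rfl
    intro x _
    cases f x <;> simp [sgn]
  rw [h2]
  linarith

theorem ent_sgn {n : ℕ} (f : (Fin n → Bool) → Bool) :
    ent (fun x => sgn (f x)) = Real.binEntropy (alpha f true) := by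
  unfold ent
  simp_rw [phi_sgn]
  have h := alpha_sum f
  have h0 := alpha_nonneg f false
  have h1 := alpha_nonneg f true
  rw [avg_const, avg_sgn, phi_one_sub_two_mul _ h0 (by linarith)]
  have : alpha f false = 1 - alpha f true := by linarith
  rw [this, Real.binEntropy_one_sub]
  ring

/-- for a non-constant `f` the noisy version takes values in `(-1,1)` -/
lemma noisy_sgn_lt {n : ℕ} (f : (Fin n → Bool) → Bool) (x1 x2 : Fin n → Bool)
    (h1 : f x1 = true) (h2 : f x2 = false) (r : ℝ) (hr0 : 0 ≤ r) (hr1 : r < 1) (y : Fin n → Bool) :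
    |noisy (fun x => sgn (f x)) r y| < 1 := by
  have hs := ker_sum_left r y
  have hp : ∀ x, 0 < ker r x y := fun x => ker_pos hr0 hr1 x y
  unfold noisy
  rw [abs_lt]
  constructor
  · have : 0 < ∑ x, ker r x y * (1 + sgn (f x)) := by
      apply Finset.sum_pos'
      · intro x _
        apply mul_nonneg (hp x).le
        cases f x <;> simp [sgn]
      · exact ⟨x1, Finset.mem_univ _, mul_pos (hp x1) (by rw [h1]; simp [sgn])⟩
    simp only [mul_add, mul_one, Finset.sum_add_distrib, hs] at this
    linarith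
  · have : 0 < ∑ x, ker r x y * (1 - sgn (f x)) := by
      apply Finset.sum_pos'
      · intro x _
        apply mul_nonneg (hp x).le
        cases f x <;> simp [sgn]
      · exact ⟨x2, Finset.mem_univ _, mul_pos (hp x2) (by rw [h2]; simp [sgn])⟩
    simp only [mul_sub, mul_one, Finset.sum_sub_distrib, hs] at this
    linarith

/-- constant functions carry no information -/
lemma ent_noisy_const {n : ℕ} (c r : ℝ) : ent (noisy (fun _ : Fin n → Bool => c) r) = 0 := by
  have h : noisy (fun _ : Fin n → Bool => c) r = fun _ => c := by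
    funext y
    unfold noisy
    rw [← Finset.sum_mul, ker_sum_left, one_mul]
  rw [h]
  unfold ent
  rw [avg_const, avg_const, sub_self]

end Vale.Agent.P322
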