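import Mathlib
import Vale.Agent.P322.Bessel
import Vale.Agent.P322.Phi

namespace Vale.Agent.P322

open Finset Real

lemma jointFYi_eq {n : ℕ} (f : (Fin n → Bool) → Bool) (e : ℝ) (i : Fin n) (b c : Bool) :
    jointFYi f e i b c = (alpha f b + (1 - 2 * e) * sgn c * beta f i b) / 2 := by
  unfold jointFYi jointFY jointXY
  have h1 : ∀ y : Fin n → Bool,
      (if y i = c then ∑ x : Fin n → Bool, (if f x = b then
          (1 / 2 : ℝ) ^ n * ∏ j, (if x j = y j then 1 - e else e) else 0) else 0)
      = ∑ x : Fin n → Bool, (if f x = b then (1 / 2 : ℝ) ^ n *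
          (if y i = c then ∏ j, (if x j = y j then 1 - e else e) else 0) else 0) := by
    intro y
    by_cases h : y i = c
    · simp [h]
    · simp [h]
  simp_rw [h1]
  rw [Finset.sum_comm]
  have h2 : ∀ x : Fin n → Bool,
      (∑ y : Fin n → Bool, (if f x = b then (1 / 2 : ℝ) ^ n *
          (if y i = c then ∏ j, (if x j = y j then 1 - e else e) else 0) else 0))
      = if f x = b then (1 / 2 : ℝ) ^ n * ((1 + (1 - 2 * e) * sgn (x i) * sgn c) / 2) else 0 := by
    intro x
    by_cases h : f x = b
    · simp only [h, if_true]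
      rw [← Finset.mul_sum, marg, kernel_eq]
    · simp [h]
  simp_rw [h2]
  unfold alpha beta
  rw [Finset.mul_sum, ← Finset.sum_add_distrib, Finset.sum_div]
  apply Finset.sum_congr rfl
  intro x _
  split_ifs
  · ring
  · simp

lemma row_sum {n : ℕ} (f : (Fin n → Bool) → Bool) (e : ℝ) (i : Fin n) (b : Bool) :
    ∑ c, jointFYi f e i b c = alpha f b := by
  rw [Fintype.sum_bool, jointFYi_eq, jointFYi_eq]
  simp [sgn]
  ring

lemma col_sum {n : ℕ} (f : (Fin n → Bool) → Bool) (e : ℝ) (i : Fin n) (c : Bool) :
    ∑ b, jointFYi f e i b c = 1 / 2 := by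
  rw [Fintype.sum_bool, jointFYi_eq, jointFYi_eq]
  have h1 := alpha_sum f
  have h2 := beta_sum f i
  have : (alpha f true + (1 - 2 * e) * sgn c * beta f i true) / 2 +
      (alpha f false + (1 - 2 * e) * sgn c * beta f i false) / 2
      = ((alpha f true + alpha f false) +
        (1 - 2 * e) * sgn c * (beta f i true + beta f i false)) / 2 := by ring
  rw [this, h1, h2]
  ring

/-- contribution of the value `b` of `f X` to the mutual information with `Y_i` (in nats) -/
lemma row_bound {n : ℕ} (f : (Fin n → Bool) → Bool) (e : ℝ) (he0 : 0 ≤ e) (he1 : e ≤ 1 / 2)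
    (i : Fin n) (b : Bool) :
    ∑ c, jointFYi f e i b c * log (jointFYi f e i b c / (alpha f b * (1 / 2)))
      ≤ phi (1 - 2 * e) * ((beta f i b) ^ 2 / alpha f b) := by
  rcases eq_or_lt_of_le (alpha_nonneg f b) with h0 | hpos
  · have hb : beta f i b = 0 := by
      have := abs_beta_le f i b
      rw [← h0] at this
      exact abs_eq_zero.mp (le_antisymm this (abs_nonneg _))
    simp [jointFYi_eq, ← h0, hb]
  · set a := alpha f b with ha
    set m := beta f i b / a with hm
    set r := 1 - 2 * e with hr
    have hr0 : 0 ≤ r := by rw [hr]; linarith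
    have hr1 : r ≤ 1 := by rw [hr]; linarith
    have hm1 : |m| ≤ 1 := by
      rw [hm, abs_div, abs_of_pos hpos]
      exact (div_le_one hpos).mpr (abs_beta_le f i b)
    have hbeta : beta f i b = a * m := by
      rw [hm]; field_simp
    have key := phi_scale hr0 hr1 hm1
    have hval : ∀ c, jointFYi f e i b c * log (jointFYi f e i b c / (a * (1 / 2)))
        = a * ((1 + r * m * sgn c) / 2 * log (1 + r * m * sgn c)) := by
      intro c
      rw [jointFYi_eq, hbeta]
      have : (a + r * sgn c * (a * m)) / 2 / (a * (1 / 2)) = 1 + r * m * sgn c := by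
        field_simp
      rw [this]
      ring
    simp_rw [hval]
    rw [Fintype.sum_bool]
    have hphi : a * ((1 + r * m * sgn true) / 2 * log (1 + r * m * sgn true)) +
        a * ((1 + r * m * sgn false) / 2 * log (1 + r * m * sgn false)) = a * phi (r * m) := by
      simp only [sgn, phi]
      simp
      ring_nf
    rw [hphi, hbeta]
    have : phi r * ((a * m) ^ 2 / a) = a * (m ^ 2 * phi r) := by
      field_simp
    rw [this]
    exact mul_le_mul_of_nonneg_left key hpos.le

lemma mi_coord_bound {n : ℕ} (f : (Fin n → Bool) → Bool) (e : ℝ) (he0 : 0 ≤ e) (he1 : e ≤ 1 / 2)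
    (i : Fin n) :
    mutualInfoBits (jointFYi f e i)
      ≤ (phi (1 - 2 * e) / log 2) * ∑ b, (beta f i b) ^ 2 / alpha f b := by
  unfold mutualInfoBits
  have hlog2 : 0 < log 2 := log_pos (by norm_num)
  simp_rw [row_sum, col_sum, Real.logb]
  have h1 : ∀ b : Bool, ∑ c, jointFYi f e i b c *
      (log (jointFYi f e i b c / (alpha f b * (1 / 2))) / log 2)
      = (∑ c, jointFYi f e i b c * log (jointFYi f e i b c / (alpha f b * (1 / 2)))) / log 2 := by
    intro b
    rw [Finset.sum_div]
    apply Finset.sum_congr rfl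
    intro c _
    ring
  simp_rw [h1]
  rw [Finset.mul_sum]
  apply Finset.sum_le_sum
  intro b _
  have := row_bound f e he0 he1 i b
  rw [div_mul_eq_mul_div]
  exact div_le_div_of_nonneg_right this hlog2.le

theorem coordinatewise {n : ℕ} (f : (Fin n → Bool) → Bool) (e : ℝ) (he0 : 0 ≤ e)
    (he1 : e ≤ 1 / 2) :
    ∑ i, mutualInfoBits (jointFYi f e i) ≤ 1 - h2 e := by
  have hlog2 : 0 < log 2 := log_pos (by norm_num)
  have hphi : phi (1 - 2 * e) = log 2 - binEntropy e :=
    phi_one_sub_two_mul e he0 (by linarith)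
  have hphi0 : 0 ≤ phi (1 - 2 * e) := by
    apply phi_nonneg
    rw [abs_le]
    constructor <;> linarith
  have hrhs : 1 - h2 e = phi (1 - 2 * e) / log 2 := by
    rw [hphi, h2]
    field_simp
  rw [hrhs]
  have hc : 0 ≤ phi (1 - 2 * e) / log 2 := div_nonneg hphi0 hlog2.le
  calc ∑ i, mutualInfoBits (jointFYi f e i)
      ≤ ∑ i, (phi (1 - 2 * e) / log 2) * ∑ b, (beta f i b) ^ 2 / alpha f b :=
        Finset.sum_le_sum (fun i _ => mi_coord_bound f e he0 he1 i)
    _ = (phi (1 - 2 * e) / log 2) * ∑ b, (∑ i, (beta f i b) ^ 2) / alpha f b := by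
        rw [← Finset.mul_sum, Finset.sum_comm]
        congr 1
        apply Finset.sum_congr rfl
        intro b _
        rw [Finset.sum_div]
    _ ≤ (phi (1 - 2 * e) / log 2) * ∑ b, (1 - alpha f b) := by
        apply mul_le_mul_of_nonneg_left _ hc
        apply Finset.sum_le_sum
        intro b _
        rcases eq_or_lt_of_le (alpha_nonneg f b) with h0 | hpos
        · rw [← h0]
          simp
        · rw [div_le_iff₀ hpos]
          have := bessel f b
          linarith
    _ = phi (1 - 2 * e) / log 2 := by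
        rw [Fintype.sum_bool]
        have := alpha_sum f
        have h : (1 - alpha f true) + (1 - alpha f false) = 1 := by linarith
        rw [h, mul_one]

end Vale.Agent.P322
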