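import Mathlib
import Vale.Agent.P322.Defs

namespace Vale.Agent.P322

/-- Probability that `f X = true` for `X` uniform on the `n`-cube. -/
noncomputable def probTrue {n : ℕ} (f : (Fin n → Bool) → Bool) : ℝ :=
  ∑ x, if f x = true then (1 / 2 : ℝ) ^ n else 0

end Vale.Agent.P322
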