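import Mathlib
import Vale.Agent.P322.GDefs
import Vale.Agent.P322.OneVar

namespace Vale.Agent.P322

open Finset Real

/-- cross entropy type function, affine in the first variable -/
noncomputable def Lx (x y : ℝ) : ℝ := (1 + x) / 2 * log (1 + y) + (1 - x) / 2 * log (1 - y)

lemma Lx_self (x : ℝ) : Lx x x = phi x := by
  unfold Lx phi
  ring

lemma phi_one : phi 1 = log 2 := by
  unfold phi
  norm_num

lemma phi_le_sq {t : ℝ} (h : |t| ≤ 1) : phi t ≤ t ^ 2 * log 2 := by
  have := phi_scale (r := 1) (m := t) (by norm_num) le_rfl h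
  rwa [one_mul, phi_one] at this

/-- perspective decomposition of the two-point entropy -/
lemma persp_phi {w d : ℝ} (ha : |w + d| < 1) (hb : |w - d| < 1) :
    (phi (w + d) + phi (w - d)) / 2 - phi w
      = (1 + w) / 2 * phi (d / (1 + w)) + (1 - w) / 2 * phi (d / (1 - w)) := by
  have ha' := abs_lt.mp ha
  have hb' := abs_lt.mp hb
  have h1a : 0 < 1 + (w + d) := by linarith [ha'.1]
  have h2a : 0 < 1 - (w + d) := by linarith [ha'.2]
  have h1b : 0 < 1 + (w - d) := by linarith [hb'.1]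
  have h2b : 0 < 1 - (w - d) := by linarith [hb'.2]
  have h1w : 0 < 1 + w := by linarith
  have h2w : 0 < 1 - w := by linarith
  have e1 : 1 + d / (1 + w) = (1 + (w + d)) / (1 + w) := by
    field_simp
    ring
  have e2 : 1 - d / (1 + w) = (1 + (w - d)) / (1 + w) := by
    field_simp
    ring
  have e3 : 1 + d / (1 - w) = (1 - (w - d)) / (1 - w) := by
    field_simp
    ring
  have e4 : 1 - d / (1 - w) = (1 - (w + d)) / (1 - w) := by
    field_simp
    ring
  unfold phi
  rw [e1, e2, e3, e4, log_div h1a.ne' h1w.ne', log_div h1b.ne' h1w.ne', log_div h2b.ne' h2w.ne',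
    log_div h2a.ne' h2w.ne']
  field_simp
  ring

/-- perspective decomposition of the edge cost -/
lemma persp_cc {w d : ℝ} (ha : |w + d| < 1) (hb : |w - d| < 1) :
    cc (w + d) (w - d)
      = (1 + w) / 2 * ((d / (1 + w)) * At (d / (1 + w)))
        + (1 - w) / 2 * ((d / (1 - w)) * At (d / (1 - w))) := by
  have ha' := abs_lt.mp ha
  have hb' := abs_lt.mp hb
  have h1a : 0 < 1 + (w + d) := by linarith [ha'.1]
  have h2a : 0 < 1 - (w + d) := by linarith [ha'.2]
  have h1b : 0 < 1 + (w - d) := by linarith [hb'.1]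
  have h2b : 0 < 1 - (w - d) := by linarith [hb'.2]
  have h1w : 0 < 1 + w := by linarith
  have h2w : 0 < 1 - w := by linarith
  have e1 : 1 + d / (1 + w) = (1 + (w + d)) / (1 + w) := by
    field_simp
    ring
  have e2 : 1 - d / (1 + w) = (1 + (w - d)) / (1 + w) := by
    field_simp
    ring
  have e3 : 1 + d / (1 - w) = (1 - (w - d)) / (1 - w) := by
    field_simp
    ring
  have e4 : 1 - d / (1 - w) = (1 - (w + d)) / (1 - w) := by
    field_simp
    ring
  unfold cc At
  rw [e1, e2, e3, e4, log_div h1a.ne' h1w.ne', log_div h1b.ne' h1w.ne', log_div h2b.ne' h2w.ne',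
    log_div h2a.ne' h2w.ne']
  field_simp
  ring

lemma Gq_convex {p q x y : ℝ} (hp : 0 ≤ p) (hq : 0 ≤ q) (hpq : p + q = 1) :
    Gq (p * x + q * y) ≤ p * Gq x + q * Gq y := by
  unfold Gq
  have hq' : q = 1 - p := by linarith
  subst hq'
  nlinarith [mul_nonneg (mul_nonneg hp hq) (sq_nonneg (x - y))]

lemma abs_ratio_lt {w d : ℝ} (ha : |w + d| < 1) (hb : |w - d| < 1) :
    |d / (1 + w)| < 1 ∧ |d / (1 - w)| < 1 := by
  have ha' := abs_lt.mp ha
  have hb' := abs_lt.mp hb
  have h1w : 0 < 1 + w := by linarith [ha'.1, hb'.1]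
  have h2w : 0 < 1 - w := by linarith [ha'.2, hb'.2]
  constructor
  · rw [abs_div, abs_of_pos h1w, div_lt_one h1w, abs_lt]
    constructor <;> linarith [ha'.1, hb'.1]
  · rw [abs_div, abs_of_pos h2w, div_lt_one h2w, abs_lt]
    constructor <;> linarith [ha'.2, hb'.2]

/-- L1: the one-dimensional inequality -/
lemma cc_ge {w d : ℝ} (ha : |w + d| < 1) (hb : |w - d| < 1) :
    Gq ((phi (w + d) + phi (w - d)) / 2 - phi w) ≤ cc (w + d) (w - d) := by
  have ha' := abs_lt.mp ha
  have hb' := abs_lt.mp hb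
  have h1w : 0 < 1 + w := by linarith [ha'.1, hb'.1]
  have h2w : 0 < 1 - w := by linarith [ha'.2, hb'.2]
  obtain ⟨ht1, ht2⟩ := abs_ratio_lt ha hb
  rw [persp_phi ha hb, persp_cc ha hb]
  refine (Gq_convex (by linarith) (by linarith) (by ring)).trans ?_
  have k1 := psi_ge ht1
  have k2 := psi_ge ht2
  have := mul_le_mul_of_nonneg_left k1 (show 0 ≤ (1 + w) / 2 by linarith)
  have := mul_le_mul_of_nonneg_left k2 (show 0 ≤ (1 - w) / 2 by linarith)
  linarith

/-- L5 -/
lemma ent1_le {w d : ℝ} (ha : |w + d| < 1) (hb : |w - d| < 1) :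
    (phi (w + d) + phi (w - d)) / 2 - phi w ≤ log 2 * (d ^ 2 / (1 - w ^ 2)) := by
  have ha' := abs_lt.mp ha
  have hb' := abs_lt.mp hb
  have h1w : 0 < 1 + w := by linarith [ha'.1, hb'.1]
  have h2w : 0 < 1 - w := by linarith [ha'.2, hb'.2]
  obtain ⟨ht1, ht2⟩ := abs_ratio_lt ha hb
  rw [persp_phi ha hb]
  have k1 := phi_le_sq ht1.le
  have k2 := phi_le_sq ht2.le
  have m1 := mul_le_mul_of_nonneg_left k1 (show 0 ≤ (1 + w) / 2 by linarith)
  have m2 := mul_le_mul_of_nonneg_left k2 (show 0 ≤ (1 - w) / 2 by linarith)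
  have hs : (1 - w ^ 2) = (1 + w) * (1 - w) := by ring
  have e : (1 + w) / 2 * ((d / (1 + w)) ^ 2 * log 2) + (1 - w) / 2 * ((d / (1 - w)) ^ 2 * log 2)
      = log 2 * (d ^ 2 / (1 - w ^ 2)) := by
    rw [hs]
    field_simp
    ring
  linarith

lemma ent1_nonneg {w d : ℝ} (ha : |w + d| < 1) (hb : |w - d| < 1) :
    0 ≤ (phi (w + d) + phi (w - d)) / 2 - phi w := by
  have ha' := abs_lt.mp ha
  have hb' := abs_lt.mp hb
  have h1w : 0 < 1 + w := by linarith [ha'.1, hb'.1]
  have h2w : 0 < 1 - w := by linarith [ha'.2, hb'.2]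
  obtain ⟨ht1, ht2⟩ := abs_ratio_lt ha hb
  rw [persp_phi ha hb]
  have k1 := phi_nonneg ht1.le
  have k2 := phi_nonneg ht2.le
  positivity

end Vale.Agent.P322
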