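import Mathlib
import Vale.Agent.P322.StepA

namespace Vale.Agent.P322

open Finset Real

/-- Gibbs inequality in the form needed for the data processing step -/
lemma gibbs {x y1 y2 y3 : ℝ} (hx : |x| < 1) (h1 : |y1| < 1) (h2 : |y2| < 1) (h3 : |y3| < 1) :
    - log ((1 + y2) * (1 + y3) / (2 * (1 + y1)) + (1 - y2) * (1 - y3) / (2 * (1 - y1)))
      ≤ phi x + Lx x y1 - Lx x y2 - Lx x y3 := by
  have hx' := abs_lt.mp hx
  have h1' := abs_lt.mp h1
  have h2' := abs_lt.mp h2
  have h3' := abs_lt.mp h3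
  have ax : 0 < 1 + x := by linarith [hx'.1]
  have bx : 0 < 1 - x := by linarith [hx'.2]
  have a1 : 0 < 1 + y1 := by linarith [h1'.1]
  have b1 : 0 < 1 - y1 := by linarith [h1'.2]
  have a2 : 0 < 1 + y2 := by linarith [h2'.1]
  have b2 : 0 < 1 - y2 := by linarith [h2'.2]
  have a3 : 0 < 1 + y3 := by linarith [h3'.1]
  have b3 : 0 < 1 - y3 := by linarith [h3'.2]
  set qp : ℝ := (1 + y2) * (1 + y3) / (2 * (1 + y1)) with hqp
  set qm : ℝ := (1 - y2) * (1 - y3) / (2 * (1 - y1)) with hqm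
  have hqp0 : 0 < qp := by positivity
  have hqm0 : 0 < qm := by positivity
  have hS : 0 < qp + qm := by positivity
  have kp := log_le_sub_one_of_pos (show 0 < qp / ((1 + x) / 2 * (qp + qm)) by positivity)
  have km := log_le_sub_one_of_pos (show 0 < qm / ((1 - x) / 2 * (qp + qm)) by positivity)
  have ep : log (qp / ((1 + x) / 2 * (qp + qm)))
      = log (1 + y2) + log (1 + y3) - log (1 + y1) - log (1 + x) - log (qp + qm) := by
    have : qp / ((1 + x) / 2 * (qp + qm))
        = (1 + y2) * (1 + y3) / ((1 + y1) * (1 + x) * (qp + qm)) := by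
      rw [hqp]
      field_simp
    rw [this, log_div (by positivity) (by positivity), log_mul a2.ne' a3.ne',
      log_mul (by positivity) hS.ne', log_mul a1.ne' ax.ne']
    ring
  have em : log (qm / ((1 - x) / 2 * (qp + qm)))
      = log (1 - y2) + log (1 - y3) - log (1 - y1) - log (1 - x) - log (qp + qm) := by
    have : qm / ((1 - x) / 2 * (qp + qm))
        = (1 - y2) * (1 - y3) / ((1 - y1) * (1 - x) * (qp + qm)) := by
      rw [hqm]
      field_simp
    rw [this, log_div (by positivity) (by positivity), log_mul b2.ne' b3.ne',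
      log_mul (by positivity) hS.ne', log_mul b1.ne' bx.ne']
    ring
  rw [ep] at kp
  rw [em] at km
  have mp := mul_le_mul_of_nonneg_left kp (show 0 ≤ (1 + x) / 2 by linarith)
  have mm := mul_le_mul_of_nonneg_left km (show 0 ≤ (1 - x) / 2 by linarith)
  have s1 : (1 + x) / 2 * (qp / ((1 + x) / 2 * (qp + qm)) - 1)
      + (1 - x) / 2 * (qm / ((1 - x) / 2 * (qp + qm)) - 1) = 0 := by
    field_simp
    ring
  unfold phi Lx
  nlinarith [mp, mm, s1]

lemma gibbs_sum {mu y2 y3 : ℝ} (h1 : |mu| < 1) :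
    (1 + y2) * (1 + y3) / (2 * (1 + mu)) + (1 - y2) * (1 - y3) / (2 * (1 - mu))
      = 1 + (y2 - mu) * (y3 - mu) / (1 - mu ^ 2) := by
  have h1' := abs_lt.mp h1
  have a1 : 0 < 1 + mu := by linarith [h1'.1]
  have b1 : 0 < 1 - mu := by linarith [h1'.2]
  have hs : (1 - mu ^ 2) = (1 + mu) * (1 - mu) := by ring
  rw [hs]
  field_simp
  ring

/-- L6 pointwise: relative entropy is at most chi-square -/
lemma kl_le_chi {w mu : ℝ} (hw : |w| < 1) (h1 : |mu| < 1) :
    phi w ≤ Lx w mu + (w - mu) ^ 2 / (1 - mu ^ 2) := by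
  have hw' := abs_lt.mp hw
  have h1' := abs_lt.mp h1
  have aw : 0 < 1 + w := by linarith [hw'.1]
  have bw : 0 < 1 - w := by linarith [hw'.2]
  have a1 : 0 < 1 + mu := by linarith [h1'.1]
  have b1 : 0 < 1 - mu := by linarith [h1'.2]
  have kp := log_le_sub_one_of_pos (show 0 < (1 + w) / (1 + mu) by positivity)
  have km := log_le_sub_one_of_pos (show 0 < (1 - w) / (1 - mu) by positivity)
  rw [log_div aw.ne' a1.ne'] at kp
  rw [log_div bw.ne' b1.ne'] at km
  have mp := mul_le_mul_of_nonneg_left kp (show 0 ≤ (1 + w) / 2 by linarith)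
  have mm := mul_le_mul_of_nonneg_left km (show 0 ≤ (1 - w) / 2 by linarith)
  have hs : (1 - mu ^ 2) = (1 + mu) * (1 - mu) := by ring
  have s1 : (1 + w) / 2 * ((1 + w) / (1 + mu) - 1) + (1 - w) / 2 * ((1 - w) / (1 - mu) - 1)
      = (w - mu) ^ 2 / (1 - mu ^ 2) := by
    rw [hs]
    field_simp
    ring
  unfold phi Lx
  nlinarith [mp, mm, s1]

end Vale.Agent.P322
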