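import Mathlib
import Vale.Agent.P322.GDefs
import Vale.Agent.P322.OneVar
import Vale.Agent.P322.StepB

namespace Vale.Agent.P322

open Finset Real

section
variable {Ω : Type} [Fintype Ω] (p : Ω → ℝ)

lemma mean_abs_lt (hp : ∀ ω, 0 ≤ p ω) (hp1 : ∑ ω, p ω = 1) (U : Ω → ℝ) (hU : ∀ ω, |U ω| < 1) :
    |∑ ω, p ω * U ω| < 1 := by
  have hex : ∃ ω, 0 < p ω := by
    by_contra hcon
    push Not at hcon
    have : ∑ ω, p ω ≤ 0 := Finset.sum_nonpos (fun ω _ => hcon ω)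
    linarith
  obtain ⟨ω0, h0⟩ := hex
  have h1 : 0 < ∑ ω, p ω * (1 - U ω) := by
    apply Finset.sum_pos'
    · intro ω _
      exact mul_nonneg (hp ω) (by linarith [(abs_lt.mp (hU ω)).2])
    · exact ⟨ω0, Finset.mem_univ _, mul_pos h0 (by linarith [(abs_lt.mp (hU ω0)).2])⟩
  have h2 : 0 < ∑ ω, p ω * (1 + U ω) := by
    apply Finset.sum_pos'
    · intro ω _
      exact mul_nonneg (hp ω) (by linarith [(abs_lt.mp (hU ω)).1])
    · exact ⟨ω0, Finset.mem_univ _, mul_pos h0 (by linarith [(abs_lt.mp (hU ω0)).1])⟩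
  simp only [mul_sub, mul_add, mul_one, Finset.sum_sub_distrib, Finset.sum_add_distrib, hp1] at h1 h2
  rw [abs_lt]
  constructor <;> linarith

lemma sum_Lx (hp1 : ∑ ω, p ω = 1) (U : Ω → ℝ) (c : ℝ) :
    ∑ ω, p ω * Lx (U ω) c = Lx (∑ ω, p ω * U ω) c := by
  unfold Lx
  have : ∀ ω, p ω * ((1 + U ω) / 2 * log (1 + c) + (1 - U ω) / 2 * log (1 - c))
      = p ω * ((log (1 + c) + log (1 - c)) / 2) + (p ω * U ω) * ((log (1 + c) - log (1 - c)) / 2) := by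
    intro ω
    ring
  simp_rw [this]
  rw [Finset.sum_add_distrib, ← Finset.sum_mul, ← Finset.sum_mul, hp1]
  ring

lemma jensen_Gq (hp : ∀ ω, 0 ≤ p ω) (hp1 : ∑ ω, p ω = 1) (ζ : Ω → ℝ) :
    Gq (∑ ω, p ω * ζ ω) ≤ ∑ ω, p ω * Gq (ζ ω) := by
  set z := ∑ ω, p ω * ζ ω with hz
  have h0 : 0 ≤ ∑ ω, p ω * (ζ ω - z) ^ 2 :=
    Finset.sum_nonneg (fun ω _ => mul_nonneg (hp ω) (sq_nonneg _))
  have h1 : ∀ ω, p ω * (ζ ω - z) ^ 2 = p ω * (ζ ω) ^ 2 - (p ω * ζ ω) * (2 * z) + p ω * z ^ 2 := by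
    intro ω
    ring
  simp_rw [h1] at h0
  rw [Finset.sum_add_distrib, Finset.sum_sub_distrib, ← Finset.sum_mul, ← Finset.sum_mul, hp1,
    ← hz] at h0
  have h2 : ∀ ω, p ω * Gq (ζ ω) = (p ω * ζ ω) * 2 + (p ω * (ζ ω) ^ 2) * (2 / 3) := by
    intro ω
    unfold Gq
    ring
  simp_rw [h2]
  rw [Finset.sum_add_distrib, ← Finset.sum_mul, ← Finset.sum_mul, ← hz]
  unfold Gq
  nlinarith [h0]

end


lemma final_alg (z kap eW a1 a2 : ℝ) (F2 : a1 * a2 ≤ 2 * (z - kap))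
    (hke : kap * eW ≤ 3 / 4 * (a1 * a2)) : Gq (eW + z) ≤ Gq z + Gq (eW + z - kap) := by
  have e : Gq z + Gq (eW + z - kap) - Gq (eW + z)
      = 2 * (z - kap) + 2 / 3 * (z - kap) ^ 2 - 4 / 3 * (kap * eW) := by
    unfold Gq
    ring
  have := sq_nonneg (z - kap)
  linarith

lemma half_abs_lt {a b : ℝ} (ha : |a| < 1) (hb : |b| < 1) : |(a + b) / 2| < 1 := by
  have h1 := abs_lt.mp ha
  have h2 := abs_lt.mp hb
  rw [abs_lt]
  constructor <;> linarith [h1.1, h1.2, h2.1, h2.2]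

section
variable {Ω : Type} [Fintype Ω] (p : Ω → ℝ) (hp : ∀ ω, 0 ≤ p ω) (hp1 : ∑ ω, p ω = 1)
  (U V : Ω → ℝ) (hU : ∀ ω, |U ω| < 1) (hV : ∀ ω, |V ω| < 1)
include hp hp1 hU hV

lemma stepF1 :
    Gq ((∑ ω, p ω * phi (U ω) + ∑ ω, p ω * phi (V ω)) / 2 - ∑ ω, p ω * phi ((U ω + V ω) / 2))
      ≤ ∑ ω, p ω * cc (U ω) (V ω) := by
  have hz : (∑ ω, p ω * phi (U ω) + ∑ ω, p ω * phi (V ω)) / 2 - ∑ ω, p ω * phi ((U ω + V ω) / 2)
      = ∑ ω, p ω * ((phi (U ω) + phi (V ω)) / 2 - phi ((U ω + V ω) / 2)) := by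
    have : ∀ ω, p ω * ((phi (U ω) + phi (V ω)) / 2 - phi ((U ω + V ω) / 2))
        = (p ω * phi (U ω) + p ω * phi (V ω)) / 2 - p ω * phi ((U ω + V ω) / 2) := by
      intro ω
      ring
    simp_rw [this]
    rw [Finset.sum_sub_distrib, ← Finset.sum_div, Finset.sum_add_distrib]
  rw [hz]
  refine (jensen_Gq p hp hp1 _).trans ?_
  apply Finset.sum_le_sum
  intro ω _
  apply mul_le_mul_of_nonneg_left _ (hp ω)
  have e1 : (U ω + V ω) / 2 + (U ω - V ω) / 2 = U ω := by ring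
  have e2 : (U ω + V ω) / 2 - (U ω - V ω) / 2 = V ω := by ring
  have := cc_ge (w := (U ω + V ω) / 2) (d := (U ω - V ω) / 2) (by rw [e1]; exact hU ω)
    (by rw [e2]; exact hV ω)
  rwa [e1, e2] at this

omit [Fintype Ω] hp hp1 hU hV in
lemma stepF2_pw {u v mU mV : ℝ} (hu : |u| < 1) (hv : |v| < 1) (aU : |mU| < 1) (aV : |mV| < 1) :
    (((mU - mV) / 2) * ((u + v) / 2 - (mU + mV) / 2) / (1 - ((mU + mV) / 2) ^ 2)) ^ 2
      ≤ phi u + phi v + (Lx u ((mU + mV) / 2) + Lx v ((mU + mV) / 2)) - Lx u mU - Lx v mV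
          - 2 * phi ((u + v) / 2) := by
  have amu := half_abs_lt aU aV
  have aW := half_abs_lt hu hv
  set mu := (mU + mV) / 2 with hmu
  set w := (u + v) / 2 with hw
  set d := (mU - mV) / 2 with hd
  have g1 := gibbs hu amu aU aW
  have g2 := gibbs hv amu aV aW
  have h1 := abs_lt.mp aU
  have h1' := abs_lt.mp aV
  have h2 := abs_lt.mp aW
  have h3 := abs_lt.mp amu
  have q1 : 0 < 1 + mU := by linarith [h1.1]
  have q2 : 0 < 1 - mU := by linarith [h1.2]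
  have q3 : 0 < 1 + w := by linarith [h2.1]
  have q4 : 0 < 1 - w := by linarith [h2.2]
  have q5 : 0 < 1 + mu := by linarith [h3.1]
  have q6 : 0 < 1 - mu := by linarith [h3.2]
  have q7 : 0 < 1 + mV := by linarith [h1'.1]
  have q8 : 0 < 1 - mV := by linarith [h1'.2]
  have p1 : 0 < (1 + mU) * (1 + w) / (2 * (1 + mu)) + (1 - mU) * (1 - w) / (2 * (1 - mu)) := by
    positivity
  have p2 : 0 < (1 + mV) * (1 + w) / (2 * (1 + mu)) + (1 - mV) * (1 - w) / (2 * (1 - mu)) := by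
    positivity
  rw [gibbs_sum amu] at g1 g2 p1 p2
  have hl := log_le_sub_one_of_pos (mul_pos p1 p2)
  rw [log_mul p1.ne' p2.ne'] at hl
  have e1 : mU - mu = d := by
    rw [hmu, hd]
    ring
  have e2 : mV - mu = -d := by
    rw [hmu, hd]
    ring
  rw [e1] at g1 hl
  rw [e2] at g2 hl
  have e3 : (1 + d * (w - mu) / (1 - mu ^ 2)) * (1 + -d * (w - mu) / (1 - mu ^ 2)) - 1
      = - (d * (w - mu) / (1 - mu ^ 2)) ^ 2 := by
    ring
  rw [e3] at hl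
  have e4 : Lx u w + Lx v w = 2 * phi w := by
    rw [← Lx_self w]
    unfold Lx
    rw [hw]
    ring
  linarith

lemma stepF2 :
    ((∑ ω, p ω * U ω - ∑ ω, p ω * V ω) / 2) ^ 2
        * (∑ ω, p ω * ((U ω + V ω) / 2 - (∑ ω, p ω * U ω + ∑ ω, p ω * V ω) / 2) ^ 2)
        / (1 - ((∑ ω, p ω * U ω + ∑ ω, p ω * V ω) / 2) ^ 2) ^ 2
      ≤ 2 * (((∑ ω, p ω * phi (U ω) + ∑ ω, p ω * phi (V ω)) / 2
              - ∑ ω, p ω * phi ((U ω + V ω) / 2))
          - ((phi (∑ ω, p ω * U ω) + phi (∑ ω, p ω * V ω)) / 2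
              - phi ((∑ ω, p ω * U ω + ∑ ω, p ω * V ω) / 2))) := by
  have aU : |∑ ω, p ω * U ω| < 1 := mean_abs_lt p hp hp1 U hU
  have aV : |∑ ω, p ω * V ω| < 1 := mean_abs_lt p hp hp1 V hV
  generalize hmU : ∑ ω, p ω * U ω = mU at *
  generalize hmV : ∑ ω, p ω * V ω = mV at *
  have hs := Finset.sum_le_sum (fun ω (_ : ω ∈ Finset.univ) =>
    mul_le_mul_of_nonneg_left (stepF2_pw (hU ω) (hV ω) aU aV) (hp ω))
  have l1 : ∑ ω, p ω * (((mU - mV) / 2) * ((U ω + V ω) / 2 - (mU + mV) / 2)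
        / (1 - ((mU + mV) / 2) ^ 2)) ^ 2
      = ((mU - mV) / 2) ^ 2 * (∑ ω, p ω * ((U ω + V ω) / 2 - (mU + mV) / 2) ^ 2)
        / (1 - ((mU + mV) / 2) ^ 2) ^ 2 := by
    have : ∀ ω, p ω * (((mU - mV) / 2) * ((U ω + V ω) / 2 - (mU + mV) / 2)
        / (1 - ((mU + mV) / 2) ^ 2)) ^ 2
        = (p ω * ((U ω + V ω) / 2 - (mU + mV) / 2) ^ 2)
          * (((mU - mV) / 2) ^ 2 / (1 - ((mU + mV) / 2) ^ 2) ^ 2) := by
      intro ω
      rw [div_pow, mul_pow]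
      ring
    simp_rw [this]
    rw [← Finset.sum_mul]
    ring
  have l2 : ∑ ω, p ω * (phi (U ω) + phi (V ω) + (Lx (U ω) ((mU + mV) / 2)
        + Lx (V ω) ((mU + mV) / 2)) - Lx (U ω) mU - Lx (V ω) mV - 2 * phi ((U ω + V ω) / 2))
      = ∑ ω, p ω * phi (U ω) + ∑ ω, p ω * phi (V ω)
        + (Lx mU ((mU + mV) / 2) + Lx mV ((mU + mV) / 2)) - Lx mU mU - Lx mV mV
        - 2 * ∑ ω, p ω * phi ((U ω + V ω) / 2) := by
    have : ∀ ω, p ω * (phi (U ω) + phi (V ω) + (Lx (U ω) ((mU + mV) / 2)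
        + Lx (V ω) ((mU + mV) / 2)) - Lx (U ω) mU - Lx (V ω) mV - 2 * phi ((U ω + V ω) / 2))
        = p ω * phi (U ω) + p ω * phi (V ω) + (p ω * Lx (U ω) ((mU + mV) / 2)
          + p ω * Lx (V ω) ((mU + mV) / 2))
          - p ω * Lx (U ω) mU - p ω * Lx (V ω) mV - 2 * (p ω * phi ((U ω + V ω) / 2)) := by
      intro ω
      ring
    simp_rw [this]
    rw [Finset.sum_sub_distrib, Finset.sum_sub_distrib, Finset.sum_sub_distrib,
      Finset.sum_add_distrib, Finset.sum_add_distrib, Finset.sum_add_distrib, ← Finset.mul_sum,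
      sum_Lx p hp1, sum_Lx p hp1, sum_Lx p hp1, sum_Lx p hp1, hmU, hmV]
  rw [l1, l2, Lx_self, Lx_self] at hs
  have e5 : Lx mU ((mU + mV) / 2) + Lx mV ((mU + mV) / 2) = 2 * phi ((mU + mV) / 2) := by
    rw [← Lx_self ((mU + mV) / 2)]
    unfold Lx
    ring
  linarith

lemma stepF4 :
    ∑ ω, p ω * phi ((U ω + V ω) / 2) - phi ((∑ ω, p ω * U ω + ∑ ω, p ω * V ω) / 2)
      ≤ (∑ ω, p ω * ((U ω + V ω) / 2 - (∑ ω, p ω * U ω + ∑ ω, p ω * V ω) / 2) ^ 2)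
        / (1 - ((∑ ω, p ω * U ω + ∑ ω, p ω * V ω) / 2) ^ 2) := by
  have aU : |∑ ω, p ω * U ω| < 1 := mean_abs_lt p hp hp1 U hU
  have aV : |∑ ω, p ω * V ω| < 1 := mean_abs_lt p hp hp1 V hV
  have hmW : ∑ ω, p ω * ((U ω + V ω) / 2) = (∑ ω, p ω * U ω + ∑ ω, p ω * V ω) / 2 := by
    have : ∀ ω, p ω * ((U ω + V ω) / 2) = (p ω * U ω + p ω * V ω) / 2 := by
      intro ω
      ring
    simp_rw [this]
    rw [← Finset.sum_div, Finset.sum_add_distrib]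
  have amu := half_abs_lt aU aV
  generalize (∑ ω, p ω * U ω + ∑ ω, p ω * V ω) / 2 = mu at *
  have hs := Finset.sum_le_sum (fun ω (_ : ω ∈ Finset.univ) =>
    mul_le_mul_of_nonneg_left (kl_le_chi (half_abs_lt (hU ω) (hV ω)) amu) (hp ω))
  have : ∀ ω, p ω * (Lx ((U ω + V ω) / 2) mu + ((U ω + V ω) / 2 - mu) ^ 2 / (1 - mu ^ 2))
      = p ω * Lx ((U ω + V ω) / 2) mu + (p ω * ((U ω + V ω) / 2 - mu) ^ 2) / (1 - mu ^ 2) := by
    intro ω
    ring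
  simp_rw [this] at hs
  rw [Finset.sum_add_distrib, sum_Lx p hp1, hmW, Lx_self, ← Finset.sum_div] at hs
  linarith

/-- the two-point step of the induction, on an arbitrary finite probability space -/
theorem step_ineq :
    Gq ((∑ ω, p ω * phi (U ω) + ∑ ω, p ω * phi (V ω)) / 2
        - phi ((∑ ω, p ω * U ω + ∑ ω, p ω * V ω) / 2))
      ≤ ∑ ω, p ω * cc (U ω) (V ω)
        + Gq (∑ ω, p ω * phi (U ω) - phi (∑ ω, p ω * U ω)) / 2
        + Gq (∑ ω, p ω * phi (V ω) - phi (∑ ω, p ω * V ω)) / 2 := by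
  have F1 := stepF1 p hp hp1 U V hU hV
  have F2 := stepF2 p hp hp1 U V hU hV
  have F4 := stepF4 p hp hp1 U V hU hV
  have aU : |∑ ω, p ω * U ω| < 1 := mean_abs_lt p hp hp1 U hU
  have aV : |∑ ω, p ω * V ω| < 1 := mean_abs_lt p hp hp1 V hV
  have hVar0 : 0 ≤ ∑ ω, p ω * ((U ω + V ω) / 2 - (∑ ω, p ω * U ω + ∑ ω, p ω * V ω) / 2) ^ 2 :=
    Finset.sum_nonneg (fun ω _ => mul_nonneg (hp ω) (sq_nonneg _))
  generalize (∑ ω, p ω * ((U ω + V ω) / 2 - (∑ ω, p ω * U ω + ∑ ω, p ω * V ω) / 2) ^ 2) = Var at *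
  generalize ∑ ω, p ω * cc (U ω) (V ω) = C at *
  generalize ∑ ω, p ω * phi ((U ω + V ω) / 2) = sW at *
  generalize ∑ ω, p ω * phi (U ω) = sU at *
  generalize ∑ ω, p ω * phi (V ω) = sV at *
  generalize ∑ ω, p ω * U ω = mU at *
  generalize ∑ ω, p ω * V ω = mV at *
  have amu := half_abs_lt aU aV
  have emd1 : (mU + mV) / 2 + (mU - mV) / 2 = mU := by ring
  have emd2 : (mU + mV) / 2 - (mU - mV) / 2 = mV := by ring
  have hsig : 0 < 1 - ((mU + mV) / 2) ^ 2 := by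
    have h1 := abs_lt.mp amu
    nlinarith [h1.1, h1.2]
  have F3 : (phi mU + phi mV) / 2 - phi ((mU + mV) / 2)
      ≤ log 2 * (((mU - mV) / 2) ^ 2 / (1 - ((mU + mV) / 2) ^ 2)) := by
    have := ent1_le (w := (mU + mV) / 2) (d := (mU - mV) / 2) (by rw [emd1]; exact aU)
      (by rw [emd2]; exact aV)
    rwa [emd1, emd2] at this
  have F3' : 0 ≤ (phi mU + phi mV) / 2 - phi ((mU + mV) / 2) := by
    have := ent1_nonneg (w := (mU + mV) / 2) (d := (mU - mV) / 2) (by rw [emd1]; exact aU)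
      (by rw [emd2]; exact aV)
    rwa [emd1, emd2] at this
  have hX : ((mU - mV) / 2) ^ 2 * Var / (1 - ((mU + mV) / 2) ^ 2) ^ 2
      = (((mU - mV) / 2) ^ 2 / (1 - ((mU + mV) / 2) ^ 2)) * (Var / (1 - ((mU + mV) / 2) ^ 2)) := by
    field_simp
  rw [hX] at F2
  have ha1n : 0 ≤ ((mU - mV) / 2) ^ 2 / (1 - ((mU + mV) / 2) ^ 2) := by positivity
  have ha2n : 0 ≤ Var / (1 - ((mU + mV) / 2) ^ 2) := by positivity
  generalize ((mU - mV) / 2) ^ 2 / (1 - ((mU + mV) / 2) ^ 2) = a1 at *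
  generalize Var / (1 - ((mU + mV) / 2) ^ 2) = a2 at *
  have hlog : log 2 ≤ 3 / 4 := by
    have := Real.log_two_lt_d9
    linarith
  have hke : ((phi mU + phi mV) / 2 - phi ((mU + mV) / 2)) * (sW - phi ((mU + mV) / 2))
      ≤ 3 / 4 * (a1 * a2) := by
    have h1 := mul_le_mul_of_nonneg_left F4 F3'
    have h2 := mul_le_mul_of_nonneg_right F3 ha2n
    have h3 : (log 2 * a1) * a2 ≤ (3 / 4 * a1) * a2 :=
      mul_le_mul_of_nonneg_right (mul_le_mul_of_nonneg_right hlog ha1n) ha2n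
    linarith
  have hmain := final_alg _ _ _ _ _ F2 hke
  have hconv := Gq_convex (p := 1 / 2) (q := 1 / 2) (x := sU - phi mU) (y := sV - phi mV)
      (by norm_num) (by norm_num) (by norm_num)
  have e1 : 1 / 2 * (sU - phi mU) + 1 / 2 * (sV - phi mV)
      = (sW - phi ((mU + mV) / 2)) + ((sU + sV) / 2 - sW)
        - ((phi mU + phi mV) / 2 - phi ((mU + mV) / 2)) := by ring
  have e2 : (sU + sV) / 2 - phi ((mU + mV) / 2)
      = (sW - phi ((mU + mV) / 2)) + ((sU + sV) / 2 - sW) := by ring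
  rw [e1] at hconv
  rw [e2]
  linarith

end

end Vale.Agent.P322
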