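import Mathlib
import Vale.Agent.P322.GDefs
import Vale.Agent.P322.Step

namespace Vale.Agent.P322

open Finset Real

lemma sum_cons {n : ℕ} (g : (Fin (n + 1) → Bool) → ℝ) :
    ∑ y, g y = ∑ y' : Fin n → Bool, g (Fin.cons true y') + ∑ y' : Fin n → Bool, g (Fin.cons false y') := by
  rw [← (Fin.consEquiv (fun _ => Bool)).sum_comp g, Fintype.sum_prod_type, Fintype.sum_bool]
  rfl

lemma avg_cons {n : ℕ} (g : (Fin (n + 1) → Bool) → ℝ) :
    avg g = (avg (fun y' : Fin n → Bool => g (Fin.cons true y'))
      + avg (fun y' : Fin n → Bool => g (Fin.cons false y'))) / 2 := by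
  unfold avg
  rw [sum_cons, pow_succ]
  ring

lemma flip_zero_cons {n : ℕ} (b : Bool) (y : Fin n → Bool) :
    flip (0 : Fin (n + 1)) (Fin.cons b y : Fin (n + 1) → Bool) = Fin.cons (!b) y := by
  unfold flip
  rw [Fin.cons_zero, Fin.update_cons_zero]

lemma flip_succ_cons {n : ℕ} (i : Fin n) (b : Bool) (y : Fin n → Bool) :
    flip i.succ (Fin.cons b y : Fin (n + 1) → Bool) = Fin.cons b (flip i y) := by
  unfold flip
  rw [Fin.cons_succ, ← Fin.cons_update]

lemma cc_comm (a b : ℝ) : cc a b = cc b a := by
  unfold cc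
  ring

lemma avg_eq_sum {n : ℕ} (g : (Fin n → Bool) → ℝ) : avg g = ∑ y, (1 / 2 : ℝ) ^ n * g y := by
  unfold avg
  rw [Finset.mul_sum]

lemma energy_cons {n : ℕ} (u : (Fin (n + 1) → Bool) → ℝ) :
    energy u = avg (fun y' : Fin n → Bool => cc (u (Fin.cons true y')) (u (Fin.cons false y')))
      + energy (fun y' : Fin n → Bool => u (Fin.cons true y')) / 2
      + energy (fun y' : Fin n → Bool => u (Fin.cons false y')) / 2 := by
  unfold energy
  rw [Fin.sum_univ_succ, avg_cons]
  simp only [flip_zero_cons, flip_succ_cons, Bool.not_true, Bool.not_false]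
  have h1 : avg (fun y' : Fin n → Bool => cc (u (Fin.cons false y')) (u (Fin.cons true y')))
      = avg (fun y' : Fin n → Bool => cc (u (Fin.cons true y')) (u (Fin.cons false y'))) := by
    congr 1
    funext y'
    exact cc_comm _ _
  rw [h1]
  have h2 : ∀ i : Fin n, avg (fun y : Fin (n + 1) → Bool => cc (u y) (u (flip i.succ y)))
      = (avg (fun y' : Fin n → Bool => cc (u (Fin.cons true y')) (u (Fin.cons true (flip i y'))))
        + avg (fun y' : Fin n → Bool => cc (u (Fin.cons false y')) (u (Fin.cons false (flip i y'))))) / 2 := by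
    intro i
    rw [avg_cons]
    simp only [flip_succ_cons]
  simp_rw [h2]
  rw [← Finset.sum_div, Finset.sum_add_distrib]
  ring

/-- nonlinear log-Sobolev inequality on the cube -/
theorem gfi {n : ℕ} (u : (Fin n → Bool) → ℝ) (hu : ∀ y, |u y| < 1) : Gq (ent u) ≤ energy u := by
  induction n with
  | zero =>
    simp [ent, avg, energy, Gq]
  | succ n ih =>
    have it := ih (fun y' : Fin n → Bool => u (Fin.cons true y')) (fun y' => hu _)
    have if' := ih (fun y' : Fin n → Bool => u (Fin.cons false y')) (fun y' => hu _)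
    have hs := step_ineq (fun _ : Fin n → Bool => (1 / 2 : ℝ) ^ n) (fun _ => by positivity)
      (card_cube n) (fun y' : Fin n → Bool => u (Fin.cons true y'))
      (fun y' : Fin n → Bool => u (Fin.cons false y')) (fun y' => hu _) (fun y' => hu _)
    simp only [← avg_eq_sum] at hs
    rw [energy_cons]
    have he : ent u = (avg (fun y' : Fin n → Bool => phi (u (Fin.cons true y')))
        + avg (fun y' : Fin n → Bool => phi (u (Fin.cons false y')))) / 2
        - phi ((avg (fun y' : Fin n → Bool => u (Fin.cons true y'))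
          + avg (fun y' : Fin n → Bool => u (Fin.cons false y'))) / 2) := by
      unfold ent
      rw [avg_cons, avg_cons u]
    rw [he]
    unfold ent at it if'
    linarith

end Vale.Agent.P322
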