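import Mathlib
import Vale.Agent.P322.GDefs
import Vale.Agent.P322.Induct
import Vale.Agent.P322.Deriv

namespace Vale.Agent.P322

open Finset Real Filter Topology

lemma phi_ge_Lx {x y : ℝ} (hx : |x| < 1) (hy : |y| < 1) : Lx x y ≤ phi x := by
  have h := gibbs hx (show |(0 : ℝ)| < 1 by simp) hy (show |(0 : ℝ)| < 1 by simp)
  have e : (1 + y) * (1 + 0) / (2 * (1 + 0)) + (1 - y) * (1 - 0) / (2 * (1 - 0)) = 1 := by ring
  rw [e, log_one] at h
  have e0 : Lx x 0 = 0 := by simp [Lx]
  rw [e0] at h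
  linarith

lemma ent_nonneg {n : ℕ} (u : (Fin n → Bool) → ℝ) (hu : ∀ y, |u y| < 1) : 0 ≤ ent u := by
  unfold ent
  have hp : ∀ _y : Fin n → Bool, (0 : ℝ) ≤ (1 / 2 : ℝ) ^ n := fun _ => by positivity
  have hm := mean_abs_lt (fun _ : Fin n → Bool => (1 / 2 : ℝ) ^ n) hp (card_cube n) u hu
  have hs := Finset.sum_le_sum (fun y (_ : y ∈ (Finset.univ : Finset (Fin n → Bool))) =>
    mul_le_mul_of_nonneg_left (phi_ge_Lx (hu y) hm) (hp y))
  rw [sum_Lx _ (card_cube n), Lx_self] at hs
  rw [avg_eq_sum, avg_eq_sum]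
  linarith

lemma continuous_ent_noisy {n : ℕ} (F : (Fin n → Bool) → ℝ) :
    Continuous (fun s => ent (noisy F s)) := by
  unfold ent
  simp_rw [avg_noisy]
  unfold avg
  have h : ∀ y : Fin n → Bool, Continuous (fun s => phi (noisy F s y)) :=
    fun y => phi_continuous.comp (continuous_noisy F y)
  fun_prop

lemma noisy_zero {n : ℕ} (F : (Fin n → Bool) → ℝ) (y : Fin n → Bool) : noisy F 0 y = avg F := by
  unfold noisy ker avg
  simp [Finset.mul_sum]

lemma ent_noisy_zero {n : ℕ} (F : (Fin n → Bool) → ℝ) : ent (noisy F 0) = 0 := by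
  unfold ent
  rw [avg_noisy]
  simp_rw [noisy_zero]
  rw [avg_eq_sum, ← Finset.sum_mul, card_cube, one_mul, sub_self]

/-- improved strong data processing for binary-valued posteriors -/
theorem ent_noisy_le {n : ℕ} (F : (Fin n → Bool) → ℝ)
    (hlt : ∀ r, 0 ≤ r → r < 1 → ∀ y, |noisy F r y| < 1) (r : ℝ) (hr0 : 0 ≤ r) (hr1 : r ≤ 1) :
    ent (noisy F r) * (1 + ent F / 3 * (1 - r ^ 2)) ≤ r ^ 2 * ent F := by
  set e : ℝ → ℝ := fun s => ent (noisy F s) with he
  have hcont : Continuous e := continuous_ent_noisy F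
  have hnn : ∀ s, 0 ≤ s → s < 1 → 0 ≤ e s := fun s h0 h1 => ent_nonneg _ (hlt s h0 h1)
  have he1 : e 1 = ent F := by
    simp only [he]
    rw [noisy_one]
  have hH : 0 ≤ e 1 := by
    have ht : Tendsto e (𝓝[<] 1) (𝓝 (e 1)) := (hcont.tendsto 1).mono_left nhdsWithin_le_nhds
    refine ge_of_tendsto ht ?_
    filter_upwards [Ioo_mem_nhdsLT (show (0 : ℝ) < 1 by norm_num)] with s hs
    exact hnn s hs.1.le hs.2
  have hder : ∀ s, 0 < s → s < 1 → HasDerivAt e (energy (noisy F s) / s) s :=
    fun s h0 h1 => hasDerivAt_ent_noisy F s h0.ne' (hlt s h0.le h1)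
  have hgfi : ∀ s, 0 < s → s < 1 → Gq (e s) ≤ energy (noisy F s) :=
    fun s h0 h1 => gfi _ (hlt s h0.le h1)
  rw [← he1]
  change e r * (1 + e 1 / 3 * (1 - r ^ 2)) ≤ r ^ 2 * e 1
  rcases eq_or_lt_of_le hr0 with h0 | h0
  · subst h0
    have : e 0 = 0 := ent_noisy_zero F
    rw [this]
    simp
  rcases eq_or_lt_of_le hr1 with h1 | h1
  · subst h1
    simp
  rcases eq_or_lt_of_le (hnn r hr0 h1) with hz | hpos
  · rw [← hz]
    have : 0 ≤ r ^ 2 * e 1 := by positivity
    simpa using this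
  -- monotonicity of e on [r,1]
  have hmono : MonotoneOn e (Set.Icc r 1) := by
    apply monotoneOn_of_deriv_nonneg (convex_Icc r 1) hcont.continuousOn
    · intro s hs
      rw [interior_Icc] at hs
      exact (hder s (h0.trans hs.1) hs.2).differentiableAt.differentiableWithinAt
    · intro s hs
      rw [interior_Icc] at hs
      have hs0 : 0 < s := h0.trans hs.1
      rw [(hder s hs0 hs.2).deriv]
      have h1 := hgfi s hs0 hs.2
      have h2 := hnn s hs0.le hs.2
      have : 0 ≤ Gq (e s) := by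
        unfold Gq
        positivity
      have : 0 ≤ energy (noisy F s) := by linarith
      positivity
  have hepos : ∀ s ∈ Set.Icc r 1, 0 < e s := by
    intro s hs
    have := hmono (Set.left_mem_Icc.mpr hr1) hs hs.1
    linarith
  -- the antitone quantity
  have hanti : AntitoneOn (fun s => s ^ 2 * (1 / e s + 1 / 3)) (Set.Icc r 1) := by
    apply antitoneOn_of_deriv_nonpos (convex_Icc r 1)
    · apply ContinuousOn.mul (by fun_prop)
      apply ContinuousOn.add _ continuousOn_const
      apply ContinuousOn.div continuousOn_const hcont.continuousOn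
      intro s hs
      exact (hepos s hs).ne'
    · intro s hs
      rw [interior_Icc] at hs
      have hs0 : 0 < s := h0.trans hs.1
      have hp := hepos s ⟨hs.1.le, hs.2.le⟩
      have hd := hder s hs0 hs.2
      have h3 := ((hasDerivAt_pow 2 s).fun_mul
        ((((hasDerivAt_const s (1 : ℝ)).fun_div hd hp.ne')).add_const (1 / 3 : ℝ)))
      exact h3.differentiableAt.differentiableWithinAt
    · intro s hs
      rw [interior_Icc] at hs
      have hs0 : 0 < s := h0.trans hs.1
      have hp := hepos s ⟨hs.1.le, hs.2.le⟩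
      have hd := hder s hs0 hs.2
      have h3 := ((hasDerivAt_pow 2 s).fun_mul
        ((((hasDerivAt_const s (1 : ℝ)).fun_div hd hp.ne')).add_const (1 / 3 : ℝ)))
      rw [h3.deriv]
      have hg := hgfi s hs0 hs.2
      have e1 : (↑(2 : ℕ) * s ^ (2 - 1) * (1 / e s + 1 / 3)
          + s ^ 2 * ((0 * e s - 1 * (energy (noisy F s) / s)) / e s ^ 2))
          = s / e s ^ 2 * (Gq (e s) - energy (noisy F s)) := by
        unfold Gq
        field_simp
        ring
      rw [e1]
      have : 0 ≤ s / e s ^ 2 := by positivity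
      nlinarith
  have hfin := hanti (Set.left_mem_Icc.mpr hr1) (Set.right_mem_Icc.mpr hr1) hr1
  simp only at hfin
  have hp1 := hepos 1 (Set.right_mem_Icc.mpr hr1)
  have e2 : (1 : ℝ) ^ 2 * (1 / e 1 + 1 / 3) = (3 + e 1) / (3 * e 1) := by
    field_simp
  have e3 : r ^ 2 * (1 / e r + 1 / 3) = r ^ 2 * (3 + e r) / (3 * e r) := by
    field_simp
  rw [e2, e3, div_le_div_iff₀ (by positivity) (by positivity)] at hfin
  nlinarith

end Vale.Agent.P322
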