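import Mathlib
import Vale.Agent.P322.DefsB
import Vale.Agent.P322.Ode
import Vale.Agent.P322.Bridge

namespace Vale.Agent.P322

open Finset Real

lemma probTrue_eq {n : ℕ} (f : (Fin n → Bool) → Bool) : probTrue f = alpha f true := rfl

/-- the basic inequality in nats, for every Boolean function -/
lemma nat_bound {n : ℕ} (f : (Fin n → Bool) → Bool) (r : ℝ) (hr0 : 0 ≤ r) (hr1 : r ≤ 1) :
    ent (noisy (fun x => sgn (f x)) r) * (1 + binEntropy (probTrue f) / 3 * (1 - r ^ 2))
      ≤ r ^ 2 * binEntropy (probTrue f) := by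
  rw [probTrue_eq, ← ent_sgn]
  by_cases h1 : ∃ x1, f x1 = true
  · by_cases h2 : ∃ x2, f x2 = false
    · obtain ⟨x1, h1⟩ := h1
      obtain ⟨x2, h2⟩ := h2
      exact ent_noisy_le _ (fun s hs0 hs1 y => noisy_sgn_lt f x1 x2 h1 h2 s hs0 hs1 y) r hr0 hr1
    · push Not at h2
      have hf : (fun x => sgn (f x)) = fun _ => sgn true := by
        funext x
        have := h2 x
        simp only [Bool.not_eq_false] at this
        rw [this]
      have e1 := ent_noisy_const (n := n) (sgn true) r
      have e2 := ent_noisy_const (n := n) (sgn true) 1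
      rw [noisy_one] at e2
      rw [hf, e1, e2]
      simp
  · push Not at h1
    have hf : (fun x => sgn (f x)) = fun _ => sgn false := by
      funext x
      have := h1 x
      simp only [Bool.not_eq_true] at this
      rw [this]
    have e1 := ent_noisy_const (n := n) (sgn false) r
    have e2 := ent_noisy_const (n := n) (sgn false) 1
    rw [noisy_one] at e2
    rw [hf, e1, e2]
    simp

lemma probTrue_mem {n : ℕ} (f : (Fin n → Bool) → Bool) : 0 ≤ probTrue f ∧ probTrue f ≤ 1 := by
  rw [probTrue_eq]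
  have h := alpha_sum f
  have h0 := alpha_nonneg f false
  have h1 := alpha_nonneg f true
  constructor <;> linarith

/-- improved strong data processing inequality, in bits -/
theorem improved_sdpi {n : ℕ} (f : (Fin n → Bool) → Bool) (e : ℝ) (he0 : 0 ≤ e) (he1 : e ≤ 1 / 2) :
    mutualInfoBits (jointFY f e)
      ≤ (1 - 2 * e) ^ 2 * h2 (probTrue f)
        / (1 + Real.log 2 / 3 * h2 (probTrue f) * (1 - (1 - 2 * e) ^ 2)) := by
  have hb := nat_bound f (1 - 2 * e) (by linarith) (by linarith)
  have hl : 0 < Real.log 2 := Real.log_pos (by norm_num)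
  have hm := probTrue_mem f
  have hH : 0 ≤ binEntropy (probTrue f) := binEntropy_nonneg hm.1 hm.2
  have hk : 0 ≤ 1 - (1 - 2 * e) ^ 2 := by nlinarith
  rw [mi_eq f e he0 he1]
  unfold h2
  have hden : 0 < 1 + Real.log 2 / 3 * (binEntropy (probTrue f) / Real.log 2) * (1 - (1 - 2 * e) ^ 2) := by
    positivity
  rw [le_div_iff₀ hden]
  have e1 : ent (noisy (fun x => sgn (f x)) (1 - 2 * e)) / Real.log 2 *
      (1 + Real.log 2 / 3 * (binEntropy (probTrue f) / Real.log 2) * (1 - (1 - 2 * e) ^ 2))
      = (ent (noisy (fun x => sgn (f x)) (1 - 2 * e))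
          * (1 + binEntropy (probTrue f) / 3 * (1 - (1 - 2 * e) ^ 2))) / Real.log 2 := by
    field_simp
  have e2 : (1 - 2 * e) ^ 2 * (binEntropy (probTrue f) / Real.log 2)
      = ((1 - 2 * e) ^ 2 * binEntropy (probTrue f)) / Real.log 2 := by
    ring
  rw [e1, e2]
  exact div_le_div_of_nonneg_right hb hl.le

lemma ent_noisy_sgn_nonneg {n : ℕ} (f : (Fin n → Bool) → Bool) (e : ℝ) (he0 : 0 ≤ e)
    (he1 : e ≤ 1 / 2) : 0 ≤ ent (noisy (fun x => sgn (f x)) (1 - 2 * e)) := by
  by_cases h1 : ∃ x1, f x1 = true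
  · by_cases h2 : ∃ x2, f x2 = false
    · obtain ⟨x1, h1⟩ := h1
      obtain ⟨x2, h2⟩ := h2
      rcases eq_or_lt_of_le he0 with h | h
      · subst h
        have hm := probTrue_mem f
        simp only [mul_zero, sub_zero]
        rw [noisy_one, ent_sgn, ← probTrue_eq]
        exact binEntropy_nonneg hm.1 hm.2
      · exact ent_nonneg _ (fun y => noisy_sgn_lt f x1 x2 h1 h2 _ (by linarith) (by linarith) y)
    · push Not at h2
      have hf : (fun x => sgn (f x)) = fun _ => sgn true := by
        funext x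
        have := h2 x
        simp only [Bool.not_eq_false] at this
        rw [this]
      rw [hf, ent_noisy_const]
  · push Not at h1
    have hf : (fun x => sgn (f x)) = fun _ => sgn false := by
      funext x
      have := h1 x
      simp only [Bool.not_eq_true] at this
      rw [this]
    rw [hf, ent_noisy_const]

/-- the Courtade-Kumar inequality for all functions of entropy at most `0.865` bits -/
theorem ck_biased {n : ℕ} (f : (Fin n → Bool) → Bool) (e : ℝ) (he0 : 0 ≤ e) (he1 : e ≤ 1 / 2)
    (hf : h2 (probTrue f) ≤ 0.865) : mutualInfoBits (jointFY f e) ≤ 1 - h2 e := by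
  have hb := nat_bound f (1 - 2 * e) (by linarith) (by linarith)
  have hl : 0 < Real.log 2 := Real.log_pos (by norm_num)
  have hm := probTrue_mem f
  have hH : 0 ≤ binEntropy (probTrue f) := binEntropy_nonneg hm.1 hm.2
  have hH2 : binEntropy (probTrue f) ≤ 3 / 5 := by
    unfold h2 at hf
    rw [div_le_iff₀ hl] at hf
    have := Real.log_two_lt_d9
    nlinarith
  have hk : 0 ≤ 1 - (1 - 2 * e) ^ 2 := by nlinarith
  have hE := ent_noisy_sgn_nonneg f e he0 he1
  have hphi := phi_ge_rat (r := 1 - 2 * e) (by linarith) (by linarith)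
  rw [mi_eq f e he0 he1]
  have e1 : 1 - h2 e = phi (1 - 2 * e) / Real.log 2 := by
    rw [phi_one_sub_two_mul e he0 (by linarith)]
    unfold h2
    field_simp
  rw [e1]
  apply div_le_div_of_nonneg_right _ hl.le
  refine le_trans ?_ hphi
  have h6 : 0 < 6 - (1 - 2 * e) ^ 2 := by nlinarith
  have hq0 : 0 ≤ (1 - 2 * e) ^ 2 := sq_nonneg _
  rw [le_div_iff₀ h6]
  generalize ent (noisy (fun x => sgn (f x)) (1 - 2 * e)) = E at *
  generalize binEntropy (probTrue f) = H at *
  generalize (1 - 2 * e) ^ 2 = q at *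
  rcases eq_or_lt_of_le hH with h0 | h0
  · subst h0
    have : E ≤ 0 := by simpa using hb
    have hE0 : E = 0 := le_antisymm this hE
    rw [hE0]
    nlinarith
  · have key : H * (E * (6 - q)) ≤ H * (3 * q) := by
      nlinarith [mul_nonneg hE (sub_nonneg.mpr hH2)]
    exact le_of_mul_le_mul_left key h0

end Vale.Agent.P322
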